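import Vale.Agent.P160.Mono

/-! Vectors whose subset sums are not flat are rare. -/

open Finset

namespace Vale.Agent.P160

theorem bad1_cons {G : Type} [AddCommGroup G] {s : ℕ} (a : G) (w : Fin s → G) (x : G) :
    pt (Fin.cons a w : Fin (s + 1) → G) x = (pt w x + pt w (x - a)) / 2 := by
  rw [pt, ← pr_equiv (Fin.consEquiv fun _ => Bool), pr_prod, Fintype.sum_bool, add_comm,
    Fintype.card_bool, Nat.cast_two, pt, pt]
  congr 2 <;> refine pr_congr fun ω => ?_
  · simp [ssum, Fin.sum_univ_succ, Fin.consEquiv]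
  · simp [ssum, Fin.sum_univ_succ, Fin.consEquiv, eq_sub_iff_add_eq']

theorem bad1_markov {κ G : Type} [Fintype κ] [DecidableEq κ] [Fintype G] [AddCommGroup G]
    (w : κ → G) {a : ℝ} (ha : 0 < a) : ∑ y, ind (a ≤ pt w y) ≤ 1 / a := by
  classical
  have h : ∑ y, pt w y ≤ 1 := by
    unfold pt
    rw [sum_pr]
    refine div_le_one_of_le₀ (le_of_eq ?_) (Nat.cast_nonneg _)
    simp [ind_eq_ite]
  rw [le_div_iff₀ ha, Finset.sum_mul]
  exact (Finset.sum_le_sum fun y _ => ind_mul_le (pr_nonneg _) id).trans h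

theorem bad1_point {a b p q : ℝ} : ind (a + b ≤ (p + q) / 2) ≤
    ind (a + 2 * b ≤ p) + ind (a + 2 * b ≤ q) + ind (a + b ≤ p) * ind (a ≤ q) +
      ind (a ≤ p) * ind (a + b ≤ q) := by
  rw [← ind_and, ← ind_and]
  refine le_trans (ind_mono (q := ((a + 2 * b ≤ p ∨ a + 2 * b ≤ q) ∨ a + b ≤ p ∧ a ≤ q) ∨
    a ≤ p ∧ a + b ≤ q) fun h => ?_) ((ind_or _ _).trans (add_le_add_left ((ind_or _ _).trans
    (add_le_add_left (ind_or _ _) _)) _))
  by_cases h1 : a + 2 * b ≤ p
  · exact .inl (.inl (.inl h1))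
  by_cases h2 : a + 2 * b ≤ q
  · exact .inl (.inl (.inr h2))
  by_cases h3 : a + b ≤ p
  · exact .inl (.inr ⟨h3, by linarith⟩)
  · exact .inr ⟨by linarith, by linarith⟩

theorem bad1_main {Q : ℕ} [NeZero Q] {K : ℝ} (hK : 2 ≤ K) {L : ℕ} (hL : Q ≤ 2 ^ L) (s i : ℕ) :
    ∑ w : Fin s → ZMod Q, ∑ x, ind (K / (2 * Q) + K / (2 * Q) * 2 ^ i ≤ pt w x) ≤
      4 ^ s * (Q : ℝ) ^ s * (2 / K) ^ (s - (L - i)) := by
  have hQ : (0 : ℝ) < Q := Nat.cast_pos.2 (NeZero.pos Q)
  have hK0 : 0 < K := by linarith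
  have ha : 0 < K / (2 * Q) := by positivity
  have hd : 2 / K ≤ 1 := (div_le_one hK0).2 hK
  induction s generalizing i with
  | zero =>
    classical
    rw [Fintype.sum_unique]
    refine le_trans (Finset.sum_le_sum fun x _ => ind_mono (q := x = 0) fun h => ?_) ?_
    · by_contra hx
      rw [pt, pr_of_not fun ω h' => hx (by simpa [ssum] using h'.symm)] at h
      have : 0 < K / (2 * Q) * 2 ^ i := by positivity
      linarith
    · simp [ind_eq_ite]
  | succ s ih =>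
    by_cases hi : L ≤ i
    · refine le_trans (le_of_eq (Finset.sum_eq_zero fun w _ => Finset.sum_eq_zero fun x _ =>
        ind_neg fun h => ?_)) (by positivity)
      have h1 : (Q : ℝ) ≤ 2 ^ i := by
        exact_mod_cast hL.trans (Nat.pow_le_pow_right (by norm_num) hi)
      have h2 := mul_le_mul_of_nonneg_left h1 ha.le
      have h3 : K / (2 * Q) * Q = K / 2 := by field_simp
      have h4 : pt w x ≤ 1 := pr_le_one _
      linarith
    set a := K / (2 * Q) with ha'
    have key : ∀ w : Fin s → ZMod Q, ∑ b, ∑ x, ind (a + a * 2 ^ i ≤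
        pt (Fin.cons b w : Fin (s + 1) → ZMod Q) x) ≤ 2 * Q * (∑ x, ind (a + a * 2 ^ (i + 1) ≤
        pt w x) + 2 / K * ∑ x, ind (a + a * 2 ^ i ≤ pt w x)) := fun w => by
      simp only [bad1_cons]
      rw [Finset.sum_comm]
      have e1 : ∀ x, ∑ b, ind (a + a * 2 ^ i ≤ (pt w x + pt w (x - b)) / 2) =
          ∑ y, ind (a + a * 2 ^ i ≤ (pt w x + pt w y) / 2) := fun x =>
        Equiv.sum_comp (Equiv.subLeft x) fun y => ind (a + a * 2 ^ i ≤ (pt w x + pt w y) / 2)
      simp only [e1]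
      refine (Finset.sum_le_sum fun x _ => Finset.sum_le_sum fun y _ => bad1_point).trans ?_
      have e2 : 2 * (a * 2 ^ i) = a * 2 ^ (i + 1) := by ring
      simp only [Finset.sum_add_distrib, ← Finset.mul_sum, ← Finset.sum_mul, Finset.sum_const,
        card_univ, ZMod.card, nsmul_eq_mul, e2]
      have m1 := bad1_markov w ha
      have m2 : 1 / a = Q * (2 / K) := by rw [ha']; field_simp
      have m3 : 0 ≤ ∑ x, ind (a + a * 2 ^ i ≤ pt w x) := Finset.sum_nonneg fun _ _ => ind_nonneg _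
      have m4 := mul_le_mul_of_nonneg_left (m1.trans m2.le) m3
      nlinarith
    rw [← Equiv.sum_comp (Fin.consEquiv fun _ => ZMod Q), Fintype.sum_prod_type, Finset.sum_comm]
    refine (Finset.sum_le_sum fun w _ => key w).trans ?_
    rw [← Finset.mul_sum, Finset.sum_add_distrib, ← Finset.mul_sum]
    have h1 := ih (i + 1)
    have h2 := mul_le_mul_of_nonneg_left (ih i) (by positivity : 0 ≤ 2 / K)
    have h3 : (2 / K) ^ (s - (L - i) + 1) ≤ (2 / K) ^ (s + 1 - (L - i)) :=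
      pow_le_pow_of_le_one (by positivity) hd (by omega)
    have h4 := mul_le_mul_of_nonneg_left h3 (by positivity : (0 : ℝ) ≤ 4 ^ s * Q ^ s)
    rw [show s - (L - (i + 1)) = s + 1 - (L - i) by omega] at h1
    rw [pow_succ] at h4
    refine (mul_le_mul_of_nonneg_left (add_le_add h1 (h2.trans (le_trans (le_of_eq (by ring))
      h4))) (by positivity)).trans (le_of_eq (by ring))

theorem bad_flat {Q : ℕ} [NeZero Q] {K : ℝ} (hK : 2 ≤ K) {L : ℕ} (hL : Q ≤ 2 ^ L) (s : ℕ) :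
    ∑ w : Fin s → ZMod Q, ind (¬Flat K w) ≤ 4 ^ s * (Q : ℝ) ^ s * (2 / K) ^ (s - L) := by
  refine le_trans (Finset.sum_le_sum fun w _ => ?_) (bad1_main hK hL s 0)
  refine le_trans (ind_mono fun h => ?_) (ind_exists _)
  obtain ⟨x, hx⟩ := not_forall.1 h
  exact ⟨x, le_trans (le_of_eq (by ring)) (not_le.1 hx).le⟩

end Vale.Agent.P160
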