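import Vale.Agent.P160.Basic

/-! Elementary estimates on the unit circle. -/

open Finset

namespace Vale.Agent.P160

theorem bad2_pow {z : ℂ} (hz : ‖z‖ = 1) (i : ℕ) : ‖1 - z ^ i‖ ≤ i * ‖1 - z‖ := by
  induction i with
  | zero => simp
  | succ i ih =>
    rw [show 1 - z ^ (i + 1) = 1 - z ^ i + z ^ i * (1 - z) by ring]
    refine (norm_add_le _ _).trans ?_
    rw [norm_mul, norm_pow, hz, one_pow]
    push_cast
    linarith

theorem bad2_geo {z : ℂ} (hz : ‖z‖ = 1) (N : ℕ) :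
    (N : ℝ) ≤ ‖∑ i ∈ range N, z ^ i‖ + N ^ 2 / 2 * ‖1 - z‖ := by
  have h1 : ∀ n : ℕ, ∑ i ∈ range n, (i : ℝ) ≤ n ^ 2 / 2 := fun n => by
    induction n with
    | zero => simp
    | succ n ih => rw [sum_range_succ]; push_cast; linarith
  have h2 : (N : ℂ) = ∑ i ∈ range N, z ^ i + ∑ i ∈ range N, (1 - z ^ i) := by
    simp [← sum_add_distrib]
  rw [← Complex.norm_natCast, h2]
  refine (norm_add_le _ _).trans (add_le_add_right ((norm_sum_le _ _).trans
    ((sum_le_sum fun i _ => bad2_pow hz i).trans ?_)) _)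
  rw [← sum_mul, ← h2, Complex.norm_natCast]
  exact mul_le_mul_of_nonneg_right (h1 N) (norm_nonneg _)

theorem bad2_norm {Q : ℕ} [NeZero Q] (σ : Bool) (a : ZMod Q) :
    ‖(if σ then -1 else 1) * ZMod.stdAddChar a‖ = 1 := by
  rw [norm_mul, AddChar.norm_apply]
  cases σ <;> simp

theorem bad2_mu {Q : ℕ} [NeZero Q] (σ : Bool) (a : ZMod Q) :
    mu σ a = 1 - ‖1 - (if σ then -1 else 1) * ZMod.stdAddChar a‖ ^ 2 / 4 := by
  have := parallelogram_law_with_norm ℂ (1 : ℂ) ((if σ then -1 else 1) * ZMod.stdAddChar a)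
  rw [bad2_norm, norm_one] at this
  rw [mu]
  linarith

end Vale.Agent.P160
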