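import Vale.Agent.P160.Mono
import Vale.Agent.P160.Bad2X1

/-! Vectors with a large mass of high modes are rare. -/

open Finset

namespace Vale.Agent.P160

theorem bad2_ne {j c : ℕ} {θ : ZMod (2 ^ (j + 1))} (hθ : 2 ^ c * θ ≠ 0) {d : ℕ} (h0 : 0 < d)
    (hd : d < 2 ^ c) : (d : ZMod (2 ^ (j + 1))) * θ ≠ 0 := fun h => by
  have h1 : addOrderOf θ ∣ 2 ^ (j + 1) := by simpa using addOrderOf_dvd_card (x := θ)
  obtain ⟨a, -, ha⟩ := (Nat.dvd_prime_pow Nat.prime_two).1 h1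
  have h2 := Nat.le_of_dvd h0 (addOrderOf_dvd_of_nsmul_eq_zero ((nsmul_eq_mul d θ).trans h))
  rw [ha] at h2
  have h3 := pow_dvd_pow 2 ((Nat.pow_lt_pow_iff_right one_lt_two).1 (h2.trans_lt hd)).le
  rw [← ha, addOrderOf_dvd_iff_nsmul_eq_zero, nsmul_eq_mul] at h3
  exact hθ (by simpa using h3)

theorem bad2_l2 {j c : ℕ} (θ : ZMod (2 ^ (j + 1))) (hθ : 2 ^ c * θ ≠ 0) (σ : Bool) :
    ∑ z : ZMod (2 ^ (j + 1)), ‖∑ k ∈ range (2 ^ c),
      ((if σ then -1 else 1) * ZMod.stdAddChar (θ * z)) ^ k‖ ^ 2 = (2 : ℝ) ^ c * 2 ^ (j + 1) := by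
  apply Complex.ofReal_injective
  have hs : ∀ s : ℂ, s = (if σ then -1 else 1) → starRingEnd ℂ s = s ∧ s * s = 1 := by
    rintro _ rfl
    cases σ <;> simp
  obtain ⟨s1, s2⟩ := hs _ rfl
  generalize (if σ then -1 else 1 : ℂ) = s at s1 s2
  have e : ∀ (z : ZMod (2 ^ (j + 1))) (k l : ℕ), starRingEnd ℂ ((s * ZMod.stdAddChar (θ * z)) ^ k) *
      (s * ZMod.stdAddChar (θ * z)) ^ l =
      s ^ k * s ^ l * ZMod.stdAddChar (z * (((l : ZMod (2 ^ (j + 1))) - (k : ZMod (2 ^ (j + 1)))) * θ)) :=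
    fun z k l => by
      rw [map_pow, map_mul, s1, ← AddChar.map_neg_eq_conj, mul_pow, mul_pow,
        ← AddChar.map_nsmul_eq_pow, ← AddChar.map_nsmul_eq_pow, mul_mul_mul_comm,
        ← AddChar.map_add_eq_mul, nsmul_eq_mul, nsmul_eq_mul]
      exact congrArg (_ * ZMod.stdAddChar ·) (by ring)
  simp only [Complex.ofReal_sum, Complex.ofReal_pow, ← Complex.conj_mul', map_sum, sum_mul_sum, e]
  rw [sum_comm, sum_congr rfl fun k hk => (sum_comm.trans (sum_eq_single_of_mem k hk ?_))]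
  · simp [← mul_pow, s2]
  · intro l hl hkl
    rw [← mul_sum, AddChar.sum_mulShift _ (ZMod.isPrimitive_stdAddChar _), if_neg, Nat.cast_zero,
      mul_zero]
    rcases hkl.lt_or_gt with h | h
    · rw [← neg_sub, neg_mul, neg_eq_zero, ← Nat.cast_sub h.le]
      exact bad2_ne hθ (Nat.sub_pos_of_lt h) ((Nat.sub_le _ _).trans_lt (mem_range.1 hk))
    · rw [← Nat.cast_sub h.le]
      exact bad2_ne hθ (Nat.sub_pos_of_lt h) ((Nat.sub_le _ _).trans_lt (mem_range.1 hl))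

theorem fejer {j c : ℕ} (θ : ZMod (2 ^ (j + 1))) (hθ : 2 ^ c * θ ≠ 0) (σ : Bool) :
    ∑ z : ZMod (2 ^ (j + 1)), ind (1 - 1 / (4 * 4 ^ c) ≤ mu σ (θ * z)) ≤
      4 / 2 ^ c * 2 ^ (j + 1) := by
  have N0 : (0 : ℝ) < 2 ^ c := by positivity
  have e4 : (4 : ℝ) ^ c = (2 ^ c) ^ 2 := by rw [← pow_mul, mul_comm, pow_mul]; norm_num
  refine (sum_le_sum (g := fun z => 4 / (2 ^ c) ^ 2 * ‖∑ k ∈ range (2 ^ c),
    ((if σ then -1 else 1) * ZMod.stdAddChar (θ * z)) ^ k‖ ^ 2) fun z _ => ?_).trans (le_of_eq ?_)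
  · rw [← mul_one (ind _)]
    refine ind_mul_le (by positivity) fun h => ?_
    have h1 := bad2_geo (bad2_norm σ (θ * z)) (2 ^ c)
    rw [bad2_mu, e4] at h
    push_cast at h1
    generalize ‖1 - (if σ then -1 else 1) * ZMod.stdAddChar (θ * z)‖ = w at h h1
    generalize (2 : ℝ) ^ c = N at *
    have h2 : (N * w) ^ 2 ≤ 1 := by
      have : w ^ 2 / 4 ≤ 1 / (4 * N ^ 2) := by linarith
      rw [le_div_iff₀ (by positivity)] at this
      linarith
    have h3 := (abs_le.1 ((sq_le_one_iff_abs_le_one _).1 h2)).2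
    rw [div_mul_eq_mul_div, one_le_div (by positivity)]
    have h4 := pow_le_pow_left₀ (half_pos N0).le (show N / 2 ≤ ‖∑ k ∈ range (2 ^ c),
      ((if σ then -1 else 1) * ZMod.stdAddChar (θ * z)) ^ k‖ by nlinarith) 2
    linarith
  · rw [← mul_sum, bad2_l2 θ hθ]
    field_simp

theorem decr {j c : ℕ} (a : ZMod (2 ^ (j + 1)) → ℝ) (ha : ∀ θ, 0 ≤ a θ)
    (ha' : ∀ θ, 2 ^ c * θ = 0 → a θ = 0) (σ : Bool) :
    ∑ z : ZMod (2 ^ (j + 1)),
      ind ((1 - 1 / (8 * 4 ^ c)) * ∑ θ, a θ < ∑ θ, a θ * mu σ (θ * z)) ≤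
      8 / 2 ^ c * 2 ^ (j + 1) := by
  rcases (sum_nonneg fun θ (_ : θ ∈ univ) => ha θ).eq_or_lt with h0 | h0
  · have h1 := (sum_eq_zero_iff_of_nonneg fun θ _ => ha θ).1 h0.symm
    refine (sum_eq_zero fun z _ => ind_neg ?_).trans_le (by positivity)
    simp [h1]
  have h1 : ∀ z, ind ((1 - 1 / (8 * 4 ^ c)) * ∑ θ, a θ < ∑ θ, a θ * mu σ (θ * z)) *
      ((∑ θ, a θ) / 2) ≤ ∑ θ, a θ * ind (1 - 1 / (4 * 4 ^ c) ≤ mu σ (θ * z)) := fun z => by
    refine ind_mul_le (sum_nonneg fun θ _ => mul_nonneg (ha θ) (ind_nonneg _)) fun h => ?_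
    have d0 : (0 : ℝ) < 1 / (4 * 4 ^ c) := by positivity
    have e : (1 : ℝ) / (8 * 4 ^ c) = 1 / (4 * 4 ^ c) / 2 := by field_simp; norm_num
    rw [e] at h
    generalize (1 : ℝ) / (4 * 4 ^ c) = d at h d0 ⊢
    have h2 : ∑ θ, a θ * mu σ (θ * z) ≤
        (1 - d) * ∑ θ, a θ + d * ∑ θ, a θ * ind (1 - d ≤ mu σ (θ * z)) := by
      rw [mul_sum, mul_sum, ← sum_add_distrib]
      refine sum_le_sum fun θ _ => ?_
      by_cases h3 : 1 - d ≤ mu σ (θ * z)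
      · rw [ind_pos h3]
        linarith [mul_le_mul_of_nonneg_left (mu_le_one σ (θ * z)) (ha θ)]
      · rw [ind_neg h3]
        linarith [mul_le_mul_of_nonneg_left (not_le.1 h3).le (ha θ)]
    exact le_of_mul_le_mul_left (by linarith) d0
  have h2 := sum_le_sum fun z (_ : z ∈ univ) => h1 z
  rw [← sum_mul, sum_comm] at h2
  have h3 : ∑ θ, ∑ z, a θ * ind (1 - 1 / (4 * 4 ^ c) ≤ mu σ (θ * z)) ≤
      ∑ θ, a θ * (4 / 2 ^ c * 2 ^ (j + 1)) := sum_le_sum fun θ _ => by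
    rw [← mul_sum]
    by_cases h : 2 ^ c * θ = 0
    · simp [ha' θ h]
    · exact mul_le_mul_of_nonneg_left (fejer θ h σ) (ha θ)
  rw [← sum_mul] at h3
  refine le_of_mul_le_mul_right (h2.trans (h3.trans (le_of_eq ?_))) (half_pos h0)
  ring

theorem bad_walk {j c : ℕ} (hc : 3 ≤ c) {η : ℝ} (m : ℕ) (σ : Fin m → Bool) (r : ℕ)
    (a : ZMod (2 ^ (j + 1)) → ℝ) (ha : ∀ θ, 0 ≤ a θ) (ha' : ∀ θ, 2 ^ c * θ = 0 → a θ = 0)
    (hr : (1 - 1 / (8 * 4 ^ c)) ^ r * ∑ θ, a θ ≤ η) :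
    ∑ z : Fin m → ZMod (2 ^ (j + 1)), ind (η < ∑ θ, a θ * ∏ k, mu (σ k) (θ * z k)) ≤
      2 ^ m * (2 ^ (j + 1)) ^ m * (8 / 2 ^ c) ^ (m - r) := by
  have e1 : (8 / 2 ^ c : ℝ) ≤ 1 := div_le_one_of_le₀
    (le_trans (by norm_num) (pow_le_pow_right₀ one_le_two hc)) (by positivity)
  have r0 : (0 : ℝ) ≤ 1 - 1 / (8 * 4 ^ c) := sub_nonneg.2 (div_le_one_of_le₀
    (one_le_mul_of_one_le_of_one_le (by norm_num) (one_le_pow₀ (by norm_num))) (by positivity))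
  induction m generalizing r a with
  | zero => simpa using ind_le_one _
  | succ m ih =>
    rcases r with _ | r
    · refine (sum_eq_zero fun z _ => ind_neg (not_lt.2 (le_trans ?_ hr))).trans_le (by positivity)
      rw [pow_zero, one_mul]
      exact sum_le_sum fun θ _ => mul_le_of_le_one_right (ha θ)
        (prod_le_one (fun _ _ => mu_nonneg _ _) fun _ _ => mu_le_one _ _)
    rw [← (Fin.consEquiv fun _ => ZMod (2 ^ (j + 1))).sum_comp, Fintype.sum_prod_type]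
    refine (sum_le_sum (g := fun z => 2 ^ m * (2 ^ (j + 1)) ^ m * ((8 / 2 ^ c) ^ (m - r) +
      ind ((1 - 1 / (8 * 4 ^ c)) * ∑ θ, a θ < ∑ θ, a θ * mu (σ 0) (θ * z)) *
        (8 / 2 ^ c) ^ (m - (r + 1)))) fun z _ => ?_).trans ?_
    · have k := fun r' => ih (fun k => σ k.succ) r' (fun θ => a θ * mu (σ 0) (θ * z))
        (fun θ => mul_nonneg (ha θ) (mu_nonneg _ _)) fun θ h => by rw [ha' θ h, zero_mul]
      simp only [Fin.prod_univ_succ, Fin.consEquiv_apply, Fin.cons_zero, Fin.cons_succ, ← mul_assoc]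
      by_cases h : (1 - 1 / (8 * 4 ^ c)) * ∑ θ, a θ < ∑ θ, a θ * mu (σ 0) (θ * z)
      · rw [ind_pos h, one_mul]
        refine (k (r + 1) (le_trans (mul_le_mul_of_nonneg_left (sum_le_sum fun θ _ =>
          mul_le_of_le_one_right (ha θ) (mu_le_one _ _)) (pow_nonneg r0 _)) hr)).trans ?_
        exact mul_le_mul_of_nonneg_left (le_add_of_nonneg_left (by positivity)) (by positivity)
      · rw [ind_neg h, zero_mul, add_zero]
        refine k r (le_trans (mul_le_mul_of_nonneg_left (not_lt.1 h) (pow_nonneg r0 _)) ?_)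
        rwa [← mul_assoc, ← pow_succ]
    · have k1 := mul_le_mul_of_nonneg_right (decr a ha ha' (σ 0))
        (show (0 : ℝ) ≤ (8 / 2 ^ c) ^ (m - (r + 1)) by positivity)
      have k2 : (8 / 2 ^ c : ℝ) ^ (m - (r + 1) + 1) ≤ (8 / 2 ^ c) ^ (m - r) :=
        pow_le_pow_of_le_one (by positivity) e1 (by omega)
      have k3 := mul_le_mul_of_nonneg_left k2 (show (0 : ℝ) ≤ 2 ^ (j + 1) by positivity)
      rw [← mul_sum, sum_add_distrib, ← sum_mul, sum_const, card_univ, ZMod.card, nsmul_eq_mul,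
        Nat.add_sub_add_right, pow_succ _ m, pow_succ _ m, mul_mul_mul_comm, mul_assoc _ (2 * _)]
      refine mul_le_mul_of_nonneg_left ?_ (by positivity)
      rw [pow_succ _ (m - (r + 1))] at k3
      push_cast
      linarith

end Vale.Agent.P160
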