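import Vale.Agent.P160.Four
import Vale.Agent.P160.Bad1
import Vale.Agent.P160.Bad2

/-! Bad vectors are rare. -/

open Finset

namespace Vale.Agent.P160

theorem sum_mu_le {κ : Type} [Fintype κ] [DecidableEq κ] {Q : ℕ} [NeZero Q] {K : ℝ}
    {w : κ → ZMod Q} (hw : Flat K w) (σ : κ → Bool) :
    ∑ θ : ZMod Q, ∏ k, mu (σ k) (θ * w k) ≤ K := by
  classical
  let e : AddChar (ZMod Q) ℂ := ZMod.stdAddChar
  let sg : (κ → Bool) → ℂ := fun ω => ∏ k, if ω k then (if σ k then -1 else 1) else 1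
  have hsg : ∀ ω, ‖sg ω‖ = 1 := fun ω => by
    rw [norm_prod]
    exact Finset.prod_eq_one fun k _ => by split_ifs <;> simp
  have hF : ∀ θ, ∏ k, (1 + (if σ k then -1 else 1) * e (θ * w k)) =
      ∑ ω : κ → Bool, sg ω * e (θ * ssum w ω) := fun θ => by
    have : ∀ k, 1 + (if σ k then -1 else 1) * e (θ * w k) = ∑ b : Bool,
        (if b then (if σ k then -1 else 1) else 1) * e (θ * if b then w k else 0) := fun k => by
      simp [add_comm]
    simp only [this, ssum, Finset.mul_sum, four_map_sum, sg, ← Finset.prod_mul_distrib]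
    rw [Finset.prod_univ_sum, Fintype.piFinset_univ]
  have h1 : ((∑ θ : ZMod Q, ∏ k, ‖1 + (if σ k then -1 else 1) * e (θ * w k)‖ ^ 2 : ℝ) : ℂ) =
      ∑ p : (κ → Bool) × (κ → Bool), sg p.1 * (starRingEnd ℂ) (sg p.2) *
        ∑ θ, e (θ * (ssum w p.1 - ssum w p.2)) := by
    push_cast
    simp only [Finset.mul_sum]
    rw [Finset.sum_comm]
    refine Finset.sum_congr rfl fun θ _ => ?_
    simp only [← Complex.mul_conj']
    rw [Finset.prod_mul_distrib, ← map_prod, hF, map_sum, Finset.sum_mul_sum,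
      Fintype.sum_prod_type]
    refine Finset.sum_congr rfl fun a _ => Finset.sum_congr rfl fun b _ => ?_
    rw [mul_sub, sub_eq_add_neg, AddChar.map_add_eq_mul, AddChar.map_neg_eq_conj,
      map_mul (starRingEnd ℂ)]
    ring
  have h2 : ∑ θ : ZMod Q, ∏ k, ‖1 + (if σ k then -1 else 1) * e (θ * w k)‖ ^ 2 ≤
      Q * ∑ p : (κ → Bool) × (κ → Bool), ind (ssum w p.1 - ssum w p.2 ∈ ({0} : Finset _)) := by
    refine (le_abs_self _).trans ?_
    rw [← Real.norm_eq_abs, ← Complex.norm_real, h1, Finset.mul_sum]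
    refine (norm_sum_le _ _).trans (Finset.sum_le_sum fun p _ => le_of_eq ?_)
    rw [norm_mul, norm_mul, Complex.norm_conj, hsg, hsg,
      AddChar.sum_mulShift _ (ZMod.isPrimitive_stdAddChar Q), ind_eq_ite]
    by_cases h : ssum w p.1 - ssum w p.2 = 0 <;> simp [h]
  have h3 := pr_diff_mem w hw {0}
  have hQ : (0 : ℝ) < Q := Nat.cast_pos.2 (NeZero.pos Q)
  rw [pr, card_singleton, Nat.cast_one, one_mul, div_le_div_iff₀ (by positivity) hQ,
    Fintype.card_prod, Fintype.card_fun, Fintype.card_bool, ← mul_pow] at h3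
  simp only [mu, Finset.prod_div_distrib, Finset.prod_const, card_univ, ← Finset.sum_div]
  rw [div_le_iff₀ (by positivity)]
  push_cast at h3
  linarith

theorem bad_count {κ : Type} [Fintype κ] [DecidableEq κ] {j c L m r : ℕ} {K η : ℝ} (hK : 2 ≤ K)
    (hc : 3 ≤ c) (hL : j + 1 ≤ L) (hκ : Fintype.card κ = L + m + m)
    (hr : (1 - 1 / (8 * 4 ^ c)) ^ r * K ≤ η) :
    ∑ w : κ → ZMod (2 ^ (j + 1)), ind (¬GoodOn K c η w) ≤
      (2 ^ (j + 1)) ^ Fintype.card κ * (4 ^ Fintype.card κ * ((2 / K) ^ m + (8 / 2 ^ c) ^ (m - r))) := by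
  let e : Fin (L + m) ⊕ Fin m ≃ κ := finSumFinEquiv.trans (Fintype.equivFinOfCardEq hκ).symm
  let a : (κ → Bool) → (Fin (L + m) → ZMod (2 ^ (j + 1))) → ZMod (2 ^ (j + 1)) → ℝ :=
    fun σ x θ => ind (2 ^ c * θ ≠ 0) * ∏ k, mu (σ (e (.inl k))) (θ * x k)
  let F : (Fin (L + m) → ZMod (2 ^ (j + 1))) × (Fin m → ZMod (2 ^ (j + 1))) → ℝ := fun x =>
    ind (¬Flat K x.1) + ∑ σ : κ → Bool, ind (Flat K x.1) *
      ind (η < ∑ θ, a σ x.1 θ * ∏ k, mu (σ (e (.inr k))) (θ * x.2 k))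
  let E := (Equiv.arrowCongr e.symm (Equiv.refl (ZMod (2 ^ (j + 1))))).trans
    (Equiv.sumArrowEquivProdArrow _ _ _)
  have h1 : ∀ w, ind (¬GoodOn K c η w) ≤ F (E w) := fun w => by
    simp only [F, ← ind_and]
    refine le_trans (ind_mono fun h => ?_) ((ind_or _ _).trans (add_le_add_right (ind_exists _) _))
    by_cases hf : Flat K (E w).1
    · have hf' : Flat K w := pt_le_of_sub (e.injective.comp Sum.inl_injective) w hf
      obtain ⟨σ, hσ⟩ := not_forall.1 fun h' => h ⟨hf', h'⟩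
      refine .inr ⟨σ, hf, (not_le.1 hσ).trans_le (le_of_eq (Finset.sum_congr rfl fun θ _ => ?_))⟩
      rw [← Equiv.prod_comp e, Fintype.prod_sum_type, ← mul_assoc]
      rfl
    · exact .inl hf
  have hK0 : 0 < K := by linarith
  have h2 : ∀ σ x, ind (Flat K x) * ∑ y : Fin m → ZMod (2 ^ (j + 1)),
      ind (η < ∑ θ, a σ x θ * ∏ k, mu (σ (e (.inr k))) (θ * y k)) ≤
      2 ^ m * (2 ^ (j + 1)) ^ m * (8 / 2 ^ c) ^ (m - r) := fun σ x => by
    have hp : ∀ θ, 0 ≤ ∏ k, mu (σ (e (.inl k))) (θ * x k) := fun θ =>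
      Finset.prod_nonneg fun _ _ => mu_nonneg _ _
    refine ind_mul_le (by positivity) fun hf => bad_walk hc m _ r _
      (fun θ => mul_nonneg (ind_nonneg _) (hp θ))
      (fun θ h => by simp only [a]; rw [ind_neg (not_not.2 h), zero_mul])
      (le_trans (mul_le_mul_of_nonneg_left ((Finset.sum_le_sum fun θ _ =>
        mul_le_of_le_one_left (hp θ) (ind_le_one _)).trans (sum_mu_le hf _)) (pow_nonneg ?_ _)) hr)
    have : (1 : ℝ) ≤ 4 ^ c := one_le_pow₀ (by norm_num)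
    exact sub_nonneg.2 (div_le_one_of_le₀ (by linarith) (by positivity))
  have h3 := bad_flat (Q := 2 ^ (j + 1)) hK (Nat.pow_le_pow_right (by norm_num) hL) (L + m)
  refine (Finset.sum_le_sum fun w _ => h1 w).trans ?_
  rw [Equiv.sum_comp E F, Fintype.sum_prod_type]
  simp only [F, Finset.sum_add_distrib]
  rw [mul_add, mul_add]
  refine add_le_add ?_ ?_
  · simp only [Finset.sum_const, card_univ, Fintype.card_fun, ZMod.card, Fintype.card_fin,
      nsmul_eq_mul, ← Finset.mul_sum]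
    rw [Nat.add_sub_cancel_left] at h3
    push_cast at h3 ⊢
    refine (mul_le_mul_of_nonneg_left h3 (by positivity)).trans ?_
    have h4 : (4 : ℝ) ^ (L + m) ≤ 4 ^ (L + m + m) := pow_le_pow_right₀ (by norm_num) (by omega)
    rw [hκ, pow_add _ (L + m) m]
    refine le_trans (le_of_eq (by ring)) ((mul_le_mul_of_nonneg_left h4 (by positivity :
      (0 : ℝ) ≤ (2 ^ (j + 1)) ^ (L + m) * (2 ^ (j + 1)) ^ m * (2 / K) ^ m)).trans (le_of_eq ?_))
    ring
  · refine (Finset.sum_le_sum fun x _ => (Finset.sum_comm.trans (Finset.sum_congr rfl fun σ _ =>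
      (Finset.mul_sum _ _ _).symm)).le.trans (Finset.sum_le_sum fun σ _ => h2 σ x)).trans ?_
    simp only [Finset.sum_const, card_univ, Fintype.card_fun, ZMod.card, Fintype.card_fin,
      nsmul_eq_mul, Fintype.card_bool]
    push_cast
    have h4 : (2 : ℝ) ^ m ≤ 2 ^ (L + m + m) := pow_le_pow_right₀ (by norm_num) (by omega)
    rw [hκ, pow_add (2 ^ (j + 1)) (L + m) m, show (4 : ℝ) = 2 * 2 by norm_num, mul_pow]
    refine le_trans (le_of_eq (by ring)) ((mul_le_mul_of_nonneg_left h4 (by positivity :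
      (0 : ℝ) ≤ (2 ^ (j + 1)) ^ (L + m) * (2 ^ (j + 1)) ^ m * 2 ^ (L + m + m) *
        (8 / 2 ^ c) ^ (m - r))).trans (le_of_eq ?_))
    ring

end Vale.Agent.P160
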