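import Vale.Agent.P160.Stmt

/-! Definitions and elementary tools for P160. -/

open Finset

namespace Vale.Agent.P160

open Classical in
/-- The indicator of a proposition. -/
noncomputable def ind (p : Prop) : ℝ := if p then 1 else 0

/-- Uniform probability. -/
noncomputable def pr {α : Type} [Fintype α] (p : α → Prop) : ℝ :=
  (∑ a, ind (p a)) / Fintype.card α

section ind

variable {p q : Prop}

theorem ind_pos (h : p) : ind p = 1 := if_pos h

theorem ind_neg (h : ¬p) : ind p = 0 := if_neg h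

theorem ind_eq_ite [Decidable p] : ind p = if p then 1 else 0 := by
  by_cases h : p
  · rw [ind_pos h, if_pos h]
  · rw [ind_neg h, if_neg h]

theorem ind_nonneg (p : Prop) : 0 ≤ ind p := by
  by_cases h : p
  · rw [ind_pos h]; exact zero_le_one
  · rw [ind_neg h]

theorem ind_le_one (p : Prop) : ind p ≤ 1 := by
  by_cases h : p
  · rw [ind_pos h]
  · rw [ind_neg h]; exact zero_le_one

theorem ind_mono (h : p → q) : ind p ≤ ind q := by
  by_cases hp : p
  · rw [ind_pos hp, ind_pos (h hp)]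
  · rw [ind_neg hp]; exact ind_nonneg q

theorem ind_congr (h : p ↔ q) : ind p = ind q := by rw [propext h]

theorem ind_and (p q : Prop) : ind (p ∧ q) = ind p * ind q := by
  by_cases hp : p <;> by_cases hq : q <;> simp [ind, hp, hq]

theorem ind_or (p q : Prop) : ind (p ∨ q) ≤ ind p + ind q := by
  by_cases hp : p <;> by_cases hq : q <;> simp [ind, hp, hq]

theorem ind_forall {ι : Type} [Fintype ι] (p : ι → Prop) : ind (∀ i, p i) = ∏ i, ind (p i) := by
  by_cases h : ∀ i, p i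
  · rw [ind_pos h]; exact (Finset.prod_eq_one fun i _ => ind_pos (h i)).symm
  · rw [ind_neg h]
    obtain ⟨i, hi⟩ := not_forall.1 h
    exact (Finset.prod_eq_zero (mem_univ i) (ind_neg hi)).symm

theorem ind_exists {ι : Type} [Fintype ι] (p : ι → Prop) : ind (∃ i, p i) ≤ ∑ i, ind (p i) := by
  by_cases h : ∃ i, p i
  · rw [ind_pos h]
    obtain ⟨i, hi⟩ := h
    rw [← ind_pos hi]
    exact Finset.single_le_sum (fun i _ => ind_nonneg (p i)) (mem_univ i)
  · rw [ind_neg h]; exact Finset.sum_nonneg fun i _ => ind_nonneg _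

theorem ind_mul_le {a b : ℝ} (hb : 0 ≤ b) (h : p → a ≤ b) : ind p * a ≤ b := by
  by_cases hp : p
  · rw [ind_pos hp, one_mul]; exact h hp
  · rw [ind_neg hp, zero_mul]; exact hb

theorem sum_ind {α : Type} [Fintype α] (p : α → Prop) [DecidablePred p] :
    ∑ a, ind (p a) = ((univ.filter p).card : ℝ) := by
  simp only [ind_eq_ite, Finset.sum_boole]

end ind

section pr

variable {α β : Type} [Fintype α] [Fintype β] {p q : α → Prop}

theorem pr_nonneg (p : α → Prop) : 0 ≤ pr p :=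
  div_nonneg (Finset.sum_nonneg fun _ _ => ind_nonneg _) (Nat.cast_nonneg _)

theorem pr_mono (h : ∀ a, p a → q a) : pr p ≤ pr q :=
  div_le_div_of_nonneg_right (Finset.sum_le_sum fun a _ => ind_mono (h a)) (Nat.cast_nonneg _)

theorem pr_congr (h : ∀ a, p a ↔ q a) : pr p = pr q := by
  rw [show p = q from funext fun a => propext (h a)]

theorem pr_le_one (p : α → Prop) : pr p ≤ 1 := by
  refine div_le_one_of_le₀ ?_ (Nat.cast_nonneg _)
  simpa using Finset.sum_le_sum fun a (_ : a ∈ univ) => ind_le_one (p a)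

theorem pr_of_not (h : ∀ a, ¬p a) : pr p = 0 := by
  simp [pr, fun a => ind_neg (h a)]

theorem pr_or (p q : α → Prop) : pr (fun a => p a ∨ q a) ≤ pr p + pr q := by
  rw [pr, pr, pr, ← add_div, ← Finset.sum_add_distrib]
  exact div_le_div_of_nonneg_right (Finset.sum_le_sum fun a _ => ind_or _ _) (Nat.cast_nonneg _)

theorem sum_pr {ι : Type} (s : Finset ι) (p : ι → α → Prop) :
    ∑ i ∈ s, pr (p i) = (∑ a, ∑ i ∈ s, ind (p i a)) / Fintype.card α := by
  simp only [pr]
  rw [← Finset.sum_div, Finset.sum_comm]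

theorem pr_exists {ι : Type} [Fintype ι] (p : ι → α → Prop) :
    pr (fun a => ∃ i, p i a) ≤ ∑ i, pr (p i) := by
  rw [sum_pr, pr]
  exact div_le_div_of_nonneg_right (Finset.sum_le_sum fun a _ => ind_exists _) (Nat.cast_nonneg _)

theorem pr_const_and (c : Prop) (p : α → Prop) : pr (fun a => c ∧ p a) = ind c * pr p := by
  simp only [pr, ind_and, ← Finset.mul_sum, mul_div_assoc]

theorem pr_equiv (e : α ≃ β) (p : β → Prop) : pr (fun a => p (e a)) = pr p := by
  rw [pr, pr, Fintype.card_congr e, Equiv.sum_comp e fun b => ind (p b)]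

theorem pr_prod (p : α × β → Prop) :
    pr p = (∑ a, pr fun b => p (a, b)) / Fintype.card α := by
  simp only [pr, Fintype.sum_prod_type, Fintype.card_prod, Nat.cast_mul, ← Finset.sum_div]
  rw [div_div, mul_comm]

theorem pr_prod_le {p : α × β → Prop} {r : α → Prop} {c : ℝ} (hc : 0 ≤ c)
    (h : ∀ a, pr (fun b => p (a, b)) ≤ ind (r a) * c) : pr p ≤ pr r * c := by
  have _ := hc
  rw [pr_prod, pr, div_mul_eq_mul_div, Finset.sum_mul]
  exact div_le_div_of_nonneg_right (Finset.sum_le_sum fun a _ => h a) (Nat.cast_nonneg _)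

theorem pr_prod_le' {p : α × β → Prop} {c : ℝ} (hc : 0 ≤ c)
    (h : ∀ a, pr (fun b => p (a, b)) ≤ c) : pr p ≤ c := by
  have := pr_prod_le (p := p) (r := fun _ => True) hc fun a => by
    rw [ind_pos trivial, one_mul]; exact h a
  exact this.trans (mul_le_of_le_one_left hc (pr_le_one _))

theorem pr_pi {ι : Type} [Fintype ι] [DecidableEq ι] (p : ι → α → Prop) :
    pr (fun f : ι → α => ∀ i, p i (f i)) = ∏ i, pr (p i) := by
  simp only [pr, ind_forall, Finset.prod_div_distrib, Finset.prod_const, Fintype.card_pi,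
    Nat.cast_pow, Finset.card_univ]
  rw [Finset.prod_univ_sum, Fintype.piFinset_univ]

end pr

/-- Subset sums. -/
def ssum {κ G : Type} [Fintype κ] [AddCommMonoid G] (z : κ → G) (ω : κ → Bool) : G :=
  ∑ k, if ω k then z k else 0

/-- The law of a random subset sum. -/
noncomputable def pt {κ G : Type} [Fintype κ] [DecidableEq κ] [AddCommMonoid G] (z : κ → G)
    (x : G) : ℝ :=
  pr fun ω : κ → Bool => ssum z ω = x

/-- The collision probability of a random subset sum. -/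
noncomputable def coll {κ G : Type} [Fintype κ] [DecidableEq κ] [AddCommMonoid G] (z : κ → G) :
    ℝ :=
  pr fun p : (κ → Bool) × (κ → Bool) => ssum z p.1 = ssum z p.2

/-- The twisted Fourier factor. -/
noncomputable def mu {Q : ℕ} [NeZero Q] (σ : Bool) (a : ZMod Q) : ℝ :=
  ‖1 + (if σ then -1 else 1) * ZMod.stdAddChar a‖ ^ 2 / 4

/-- The law of the subset sums is flat up to the factor `K`. -/
def Flat {κ : Type} [Fintype κ] [DecidableEq κ] {Q : ℕ} (K : ℝ) (w : κ → ZMod Q) : Prop :=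
  ∀ x, pt w x ≤ K / Q

/-- The twisted Fourier mass of the modes of high order. -/
noncomputable def hi {κ : Type} [Fintype κ] {Q : ℕ} [NeZero Q] (c : ℕ) (w : κ → ZMod Q)
    (σ : κ → Bool) : ℝ :=
  ∑ θ : ZMod Q, ind (2 ^ c * θ ≠ 0) * ∏ k, mu (σ k) (θ * w k)

/-- Both good properties. -/
def GoodOn {κ : Type} [Fintype κ] [DecidableEq κ] {Q : ℕ} [NeZero Q] (K : ℝ) (c : ℕ) (η : ℝ)
    (w : κ → ZMod Q) : Prop :=
  Flat K w ∧ ∀ σ, hi c w σ ≤ η

/-- Good on all sets of `s` coordinates. -/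
def Good {ι : Type} [DecidableEq ι] {Q : ℕ} [NeZero Q] (K : ℝ) (c : ℕ) (η : ℝ) (s : ℕ)
    (w : ι → ZMod Q) : Prop :=
  ∀ S : Finset ι, S.card = s → GoodOn K c η fun k : S => w k

/-- Good vectors modulo `2 ^ j`. -/
def Gd {ι : Type} [DecidableEq ι] (K : ℝ) (c : ℕ) (η : ℝ) (s j : ℕ) (v : ι → ZMod (2 ^ j)) :
    Prop :=
  Good K c η s fun i => (((v i).val : ℤ) : ZMod (2 ^ (j + 1)))

/-- Rows of the lazy matrix. -/
abbrev Row (J : Type) : Type := (J → Bool) × (J → Bool)

/-- Entries of a row. -/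
def rv {J : Type} (r : Row J) (b : J) : ℤ := (if r.1 b then 1 else 0) - if r.2 b then 1 else 0

/-- The product of a row with `t`. -/
def rd {J : Type} [Fintype J] (t : J → ℤ) (r : Row J) : ℤ := ∑ b, rv r b * t b

/-- The space of extended rows. -/
abbrev Vx (J : Type) : Type := (J → ZMod 2) × ZMod 2

/-- The extended row modulo two. -/
def ex {J : Type} [Fintype J] (q : ℕ) (t : J → ℤ) (r : Row J) : Vx J :=
  (fun b => (rv r b : ZMod 2), ((rd t r / q : ℤ) : ZMod 2))

/-- The hyperplane that contains the extended rows. -/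
def V0 {J : Type} [Fintype J] (t : J → ℤ) : Submodule (ZMod 2) (Vx J) where
  carrier := {p | ∑ b, p.1 b * (t b : ZMod 2) = 0}
  add_mem' {x y} hx hy := by
    simp only [Set.mem_ofPred_eq, Prod.fst_add, Pi.add_apply, add_mul, Finset.sum_add_distrib] at *
    rw [hx, hy, add_zero]
  zero_mem' := by simp
  smul_mem' c x hx := by
    simp only [Set.mem_ofPred_eq, Prod.smul_fst, Pi.smul_apply, smul_eq_mul, mul_assoc,
      ← Finset.mul_sum] at *
    rw [hx, mul_zero]

theorem mem_V0 {J : Type} [Fintype J] {t : J → ℤ} {p : Vx J} :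
    p ∈ V0 t ↔ ∑ b, p.1 b * (t b : ZMod 2) = 0 := Iff.rfl

/-- The probability that a row is orthogonal to `t` and lies in `U`. -/
noncomputable def prU {J : Type} [Fintype J] [DecidableEq J] (q : ℕ) (t : J → ℤ)
    (U : Submodule (ZMod 2) (Vx J)) : ℝ :=
  pr fun r : Row J => (q : ℤ) ∣ rd t r ∧ ex q t r ∈ U

/-- The negative correlation property. -/
def NC {J : Type} [Fintype J] [DecidableEq J] (q : ℕ) (β : ℝ) (t : J → ℤ) : Prop :=
  ∀ U : Submodule (ZMod 2) (Vx J), U ≤ V0 t →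
    prU q t U ≤ β / q * (2 / 3) ^ (Fintype.card J - Module.finrank (ZMod 2) U)

/-- The collision probability of a cut. -/
noncomputable def cutP {A J : Type} [Fintype A] [DecidableEq A] [Fintype J] [DecidableEq J]
    (q : ℕ) (t : J → ℤ) (u : A → ℤ) : ℝ :=
  pr fun Y : A → Row J => (∀ i, (q : ℤ) ∣ rd t (Y i)) ∧ (∀ b, (q : ℤ) ∣ ∑ i, rv (Y i) b * u i) ∧
    (q : ℤ) ^ 2 ∣ 2 * ∑ i, rd t (Y i) * u i

/-- The symmetric zero-one matrix. -/
def Bm {n : ℕ} (ω : Sym2 (Fin n) → Bool) : Matrix (Fin n) (Fin n) ℤ :=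
  Matrix.of fun i j => if ω s(i, j) then 1 else 0

/-- The equations modulo `q` and `q ^ 2`. -/
def Hens {n : ℕ} (q : ℕ) (v : Fin n → ℤ) (ω : Sym2 (Fin n) → Bool) : Prop :=
  (∀ i, (q : ℤ) ∣ ∑ j, Bm ω i j * v j) ∧ (q : ℤ) ^ 2 ∣ ∑ i, ∑ j, v i * (Bm ω i j * v j)

/-- The contribution of one entry. -/
def step {n : ℕ} (q : ℕ) (v : Fin n → ℤ) (e : Sym2 (Fin n)) : (Fin n → ZMod q) × ZMod (q ^ 2) :=
  (fun i => ((∑ j, if s(i, j) = e then v j else 0 : ℤ) : ZMod q),
    ((∑ i, ∑ j, if s(i, j) = e then v i * v j else 0 : ℤ) : ZMod (q ^ 2)))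

open Classical in
/-- The pattern: a cut and a star. -/
noncomputable def patt {n : ℕ} (J : Finset (Fin n)) (i₀ : Fin n) : Finset (Sym2 (Fin n)) :=
  univ.filter fun e => (∃ i ∉ J, ∃ b ∈ J, e = s(i, b)) ∨ ∃ i ∉ J, i ≠ i₀ ∧ e = s(i₀, i)

/-- The set of vertices of colour zero. -/
def col0 {n : ℕ} (c : Fin n → Fin 3) : Finset (Fin n) := univ.filter fun i => c i = 0

/-- Balanced colourings. -/
def Bal {n : ℕ} (O S : Finset (Fin n)) (c : Fin n → Fin 3) : Prop :=
  326 * n ≤ 1000 * (col0 c).card ∧ 1000 * (col0 c).card ≤ 337 * n ∧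
    O.card ≤ 4 * (O ∩ col0 c).card ∧ 3 * S.card ≤ 10 * (S ∩ col0 c).card

/-- The odd coordinates. -/
def odds {n q : ℕ} (v : Fin n → ZMod q) : Finset (Fin n) := univ.filter fun i => Odd (v i).val

/-- The numerical conditions. -/
structure Num (n : ℕ) (K η β : ℝ) (c K₀ l s : ℕ) : Prop where
  n_le : 10000000 ≤ n
  K_le : 4 ≤ K
  c_le : 2 ≤ c
  η_le : 0 ≤ η
  small : η + 2 ^ c * (1 - 1 / 4 ^ c) ^ (n / 50) ≤ (2 / 3) ^ K₀ / 4
  beta : 1 + (η + 2 ^ c * (1 - 1 / 4 ^ c) ^ (n / 50)) ≤ β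
  big : 4 * K ≤ (4 / 3) ^ K₀
  tau : ∀ d : ℕ, 13 * n ≤ 40 * d → 2 * K * 2 ^ s * (3 / 4) ^ d ≤ 1 / 2
  tall : ∀ e : ℕ, 23 * n ≤ 100 * e → (2 : ℝ) ^ l * (2 / 3) ^ e ≤ 1 / 2
  s_le : 1000 * s ≤ 134 * n
  le_s : n ≤ 10 * s
  l_pos : 1 ≤ l

end Vale.Agent.P160
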