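import Vale.Agent.P160.Basic

/-! Reduction to zero-one matrices. -/

open Finset

namespace Vale.Agent.P160

theorem exists_kernel {n : ℕ} (B : Matrix (Fin n) (Fin n) ℤ) (h : B.det = 0) :
    ∃ v : Fin n → ℤ, (∃ i, Odd (v i)) ∧ B.mulVec v = 0 := by
  obtain ⟨v, hv, h1⟩ := Matrix.exists_mulVec_eq_zero_iff.2 h
  obtain ⟨i0, hi0⟩ := Function.ne_iff.1 hv
  obtain ⟨g, h2, h3⟩ := Finset.extract_gcd (s := univ) v ⟨i0, mem_univ _⟩
  have h4 : univ.gcd v ≠ 0 := fun h4 => hi0 (Finset.gcd_eq_zero_iff.1 h4 i0 (mem_univ _))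
  refine ⟨g, ?_, ?_⟩
  · by_contra hn
    have h5 : (2 : ℤ) ∣ univ.gcd g := Finset.dvd_gcd fun i _ =>
      even_iff_two_dvd.1 (Int.not_odd_iff_even.1 fun h6 => hn ⟨i, h6⟩)
    rw [h3] at h5
    omega
  · rw [show v = univ.gcd v • g from funext fun i => h2 i (mem_univ _), Matrix.mulVec_smul] at h1
    exact (smul_eq_zero.1 h1).resolve_left h4

/-- The sign of a Boolean. -/
def redSg (b : Bool) : ℤ := if b then 1 else -1

theorem redSg_sq (b : Bool) : redSg b * redSg b = 1 := by cases b <;> rfl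

/-- The zero-one matrix with a zero row and column added. -/
def redB {n : ℕ} (w : Sym2 (Fin n) → Bool) (i j : Fin (n + 1)) : ℤ :=
  Fin.cases 0 (fun i => Fin.cases 0 (fun j => Bm w i j) j) i

/-- The sign matrix with given first row. -/
def redPsi {n : ℕ} (p : (Fin (n + 1) → Bool) × (Sym2 (Fin n) → Bool)) :
    Matrix (Fin (n + 1)) (Fin (n + 1)) ℤ :=
  Matrix.of fun i j => redSg (p.1 0) * redSg (p.1 i) * redSg (p.1 j) * (1 - 2 * redB p.2 i j)

theorem red_row {n : ℕ} (p : (Fin (n + 1) → Bool) × (Sym2 (Fin n) → Bool)) (j : Fin (n + 1)) :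
    redPsi p 0 j = redSg (p.1 j) := by
  simp [redPsi, redB, redSg_sq]

theorem red_inj {n : ℕ} : Function.Injective (redPsi (n := n)) := by
  rintro ⟨r, w⟩ ⟨r', w'⟩ h
  obtain rfl : r = r' := funext fun j => by
    have := congrFun (congrFun h 0) j
    rw [red_row, red_row] at this
    exact (by decide : ∀ a b, redSg a = redSg b → a = b) _ _ this
  congr 1
  funext e
  induction e using Sym2.ind with
  | h i j =>
    have := congrFun (congrFun h i.succ) j.succ
    exact (by decide : ∀ a b c d e : Bool,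
      redSg a * redSg b * redSg c * (1 - 2 * if d then 1 else 0) =
        redSg a * redSg b * redSg c * (1 - 2 * if e then 1 else 0) → d = e) _ _ _ _ _ this

theorem red_range (n : ℕ) : SymSign (n + 1) = Set.range redPsi := by
  ext A
  constructor
  · rintro ⟨h1, h2⟩
    have h3 : ∀ i j, redSg (decide (A i j = 1)) = A i j := fun i j => by
      rcases h2 i j with h | h <;> simp [h, redSg]
    refine ⟨(fun j => decide (A 0 j = 1), Sym2.lift ⟨fun i j =>
      decide (A 0 0 * A 0 i.succ * A 0 j.succ * A i.succ j.succ = -1), fun i j => by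
        beta_reduce
        rw [h1.apply i.succ j.succ, mul_right_comm (A 0 0)]⟩), ?_⟩
    ext i j
    refine Fin.cases ?_ (fun i => ?_) i
    · rw [red_row, h3]
    refine Fin.cases ?_ (fun j => ?_) j
    · simp only [redPsi, redB, Matrix.of_apply, Fin.cases_succ, Fin.cases_zero, h3]
      rw [h1.apply 0 i.succ]
      rcases h2 0 0 with h | h <;> simp [h]
    · simp only [redPsi, redB, Bm, Matrix.of_apply, Fin.cases_succ, h3, Sym2.lift_mk]
      rcases h2 0 0 with a | a <;> rcases h2 0 i.succ with b | b <;>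
        rcases h2 0 j.succ with c | c <;> rcases h2 i.succ j.succ with d | d <;> simp [a, b, c, d]
  · rintro ⟨⟨r, w⟩, rfl⟩
    have h1 : ∀ i j, redB w i j = redB w j i := fun i j => by
      refine Fin.cases ?_ (fun i => ?_) i <;> refine Fin.cases ?_ (fun j => ?_) j <;>
        simp [redB, Bm, Sym2.eq_swap]
    have h2 : ∀ i j, redB w i j = 0 ∨ redB w i j = 1 := fun i j => by
      refine Fin.cases ?_ (fun i => ?_) i <;> refine Fin.cases ?_ (fun j => ?_) j <;>
        simp [redB, Bm]
    refine ⟨Matrix.IsSymm.ext fun i j => ?_, fun i j => ?_⟩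
    · simp only [redPsi, Matrix.of_apply, h1 i j]
      ring
    · simp only [redPsi, Matrix.of_apply]
      rcases h2 i j with h | h <;> cases r 0 <;> cases r i <;> cases r j <;> simp [h, redSg]

theorem red_det {n : ℕ} {p : (Fin (n + 1) → Bool) × (Sym2 (Fin n) → Bool)}
    (h : (redPsi p).det = 0) : (Bm p.2).det = 0 := by
  obtain ⟨x, hx, h1⟩ := Matrix.exists_mulVec_eq_zero_iff.2 h
  have h0 : ∀ b, redSg b ≠ 0 := fun b => left_ne_zero_of_mul_eq_one (redSg_sq b)
  have h2 : ∀ i, ∑ j, (1 - 2 * redB p.2 i j) * (redSg (p.1 j) * x j) = 0 := fun i => by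
    have h3 := congrFun h1 i
    simp only [Matrix.mulVec, dotProduct, redPsi, Matrix.of_apply, Pi.zero_apply] at h3
    refine (mul_eq_zero.1 (Eq.trans ?_ h3)).resolve_left (mul_ne_zero (h0 (p.1 0)) (h0 (p.1 i)))
    rw [mul_sum]
    exact sum_congr rfl fun j _ => by ring
  have h3 : ∑ j, redSg (p.1 j) * x j = 0 := by simpa [redB] using h2 0
  refine Matrix.exists_mulVec_eq_zero_iff.1 ⟨fun j => redSg (p.1 j.succ) * x j.succ, fun h4 => ?_,
    funext fun i => ?_⟩
  · have h5 : ∀ j : Fin n, redSg (p.1 j.succ) * x j.succ = 0 := congrFun h4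
    rw [Fin.sum_univ_succ, sum_eq_zero fun j _ => h5 j, add_zero] at h3
    refine hx (funext fun j => ?_)
    exact Fin.cases ((mul_eq_zero.1 h3).resolve_left (h0 _))
      (fun j => (mul_eq_zero.1 (h5 j)).resolve_left (h0 _)) j
  · have h4 := h2 i.succ
    simp only [sub_mul, one_mul, sum_sub_distrib, h3, mul_assoc, ← mul_sum] at h4
    rw [Fin.sum_univ_succ] at h4
    simp only [redB, Fin.cases_succ, Fin.cases_zero, zero_mul, zero_add] at h4
    simp only [Matrix.mulVec, dotProduct, Pi.zero_apply]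
    omega

theorem singProb_succ (n : ℕ) :
    singProb (n + 1) ≤ pr fun ω : Sym2 (Fin n) → Bool => (Bm ω).det = 0 := by
  have h1 : {A ∈ SymSign (n + 1) | A.det = 0}.ncard ≤ Fintype.card (Fin (n + 1) → Bool) *
      (univ.filter fun ω : Sym2 (Fin n) → Bool => (Bm ω).det = 0).card := by
    rw [← card_univ, ← card_product]
    refine le_trans ?_ (card_image_le (f := redPsi))
    rw [← Set.ncard_coe_finset]
    refine Set.ncard_le_ncard ?_ (finite_toSet _)
    rw [red_range]
    rintro _ ⟨⟨p, rfl⟩, hp⟩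
    exact mem_coe.2 (mem_image_of_mem _ (mem_product.2 ⟨mem_univ _,
      mem_filter.2 ⟨mem_univ _, red_det hp⟩⟩))
  have h2 : (SymSign (n + 1)).ncard =
      Fintype.card (Fin (n + 1) → Bool) * Fintype.card (Sym2 (Fin n) → Bool) := by
    rw [red_range, Set.ncard_range_of_injective red_inj, Nat.card_eq_fintype_card, Fintype.card_prod]
  have h3 : (0 : ℝ) < Fintype.card (Fin (n + 1) → Bool) := Nat.cast_pos.2 Fintype.card_pos
  rw [singProb, pr, sum_ind, h2, Nat.cast_mul]
  refine le_trans ?_ (mul_div_mul_left _ _ h3.ne').le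
  exact div_le_div_of_nonneg_right (by exact_mod_cast h1) (by positivity)

end Vale.Agent.P160
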