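import Vale.Agent.P160.Mono

/-! Sparse kernel vectors modulo two. -/

open Finset

namespace Vale.Agent.P160

/-- The contribution of one entry modulo two. -/
def sparseZ {n : ℕ} (T : Finset (Fin n)) (e : Sym2 (Fin n)) : Fin n → ZMod 2 :=
  fun i => ∑ j ∈ T, if s(i, j) = e then 1 else 0

theorem sparse_pt {n : ℕ} (T : Finset (Fin n)) {i₀ : Fin n} (h₀ : i₀ ∈ T) :
    pt (sparseZ T) 0 ≤ 1 / 2 ^ n := by
  refine pt_le_of_sub (f := fun k : Fin n => s(k, i₀)) (fun a b h => ?_) _ (fun y => ?_) 0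
  · exact Sym2.congr_left.1 h
  have hz : ∀ i k, i ≠ i₀ ∨ k = i₀ → sparseZ T s(k, i₀) i = if k = i then 1 else 0 := by
    intro i k h
    have : ∀ j, s(i, j) = s(k, i₀) ↔ i₀ = j ∧ k = i := fun j => by
      rw [Sym2.eq_iff]
      constructor
      · rintro (⟨a, b⟩ | ⟨a, b⟩)
        · exact ⟨b.symm, a.symm⟩
        · rcases h with h | h
          · exact absurd a h
          · exact ⟨(b.trans h).symm, h.trans a.symm⟩
      · exact fun ⟨a, b⟩ => .inl ⟨b.symm, a.symm⟩
    simp only [sparseZ, this, ite_and, Finset.sum_ite_eq, if_pos h₀]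
  have hinj : Function.Injective (ssum fun k : Fin n => sparseZ T s(k, i₀)) := by
    intro ω ω' h
    have hb : ∀ a b : Bool, ((if a then 1 else 0) : ZMod 2) = (if b then 1 else 0) → a = b := by
      decide
    have h1 : ∀ i, i ≠ i₀ → ω i = ω' i := fun i hi => by
      have := congrFun h i
      simp only [ssum, Finset.sum_apply, ite_apply, hz i _ (.inl hi), Pi.zero_apply] at this
      rw [Finset.sum_eq_single i (fun k _ hk => by simp [hk]) (by simp),
        Finset.sum_eq_single i (fun k _ hk => by simp [hk]) (by simp)] at this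
      exact hb _ _ (by simpa using this)
    have h2 := congrFun h i₀
    simp only [ssum, Finset.sum_apply, ite_apply, Pi.zero_apply] at h2
    rw [← Finset.add_sum_erase _ _ (mem_univ i₀), ← Finset.add_sum_erase _ _ (mem_univ i₀),
      Finset.sum_congr rfl fun k hk => by rw [h1 k (mem_erase.1 hk).1], add_left_inj,
      hz _ _ (.inr rfl), if_pos rfl] at h2
    funext i
    by_cases hi : i = i₀
    · rw [hi]; exact hb _ _ h2
    · exact h1 i hi
  classical
  rw [pt, pr, sum_ind, Fintype.card_fun, Fintype.card_bool, Fintype.card_fin]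
  push_cast
  refine div_le_div_of_nonneg_right (Nat.cast_le_one.2 (Finset.card_le_one.2 fun a ha b hb =>
    hinj ((mem_filter.1 ha).2.trans (mem_filter.1 hb).2.symm))) (by positivity)

theorem sparse (n : ℕ) : pr (fun ω : Sym2 (Fin n) → Bool => ∃ v : Fin n → ℤ, (∃ i, Odd (v i)) ∧
    10 * (univ.filter fun i => Odd (v i)).card < n ∧ (Bm ω).mulVec v = 0) ≤ (3 / 4) ^ n := by
  refine (pr_mono (q := fun ω => ∃ T : Finset (Fin n), (T.Nonempty ∧ 10 * T.card < n) ∧
    ssum (sparseZ T) ω = 0) fun ω ⟨v, ⟨i, hi⟩, h1, h2⟩ =>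
    ⟨univ.filter fun i => Odd (v i), ⟨⟨i, mem_filter.2 ⟨mem_univ _, hi⟩⟩, h1⟩, ?_⟩).trans ?_
  swap
  · funext k
    have h3 := congrArg (fun x : ℤ => (x : ZMod 2)) (congrFun h2 k)
    simp only [Matrix.mulVec, dotProduct, Bm, Matrix.of_apply, Pi.zero_apply, Int.cast_zero,
      Int.cast_sum, Int.cast_mul, Int.cast_ite, Int.cast_one] at h3
    rw [Pi.zero_apply, ← h3, ssum, Finset.sum_apply]
    have h4 : ∀ e, (if ω e then sparseZ (univ.filter fun i => Odd (v i)) e else 0) k =
        ∑ j, if s(k, j) = e then (if ω e then 1 else 0) * (v j : ZMod 2) else 0 := fun e => by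
      cases ω e
      · simp
      · simp only [if_true, sparseZ, Finset.sum_filter, one_mul]
        refine Finset.sum_congr rfl fun j _ => ?_
        by_cases h : Odd (v j)
        · rw [if_pos h, (ZMod.intCast_eq_one_iff_odd).2 h]
        · rw [if_neg h, (ZMod.intCast_eq_zero_iff_even).2 (Int.not_odd_iff_even.1 h), ite_self]
    simp only [h4]
    rw [Finset.sum_comm]
    simp
  refine (pr_exists _).trans ?_
  have h1 : ∀ T : Finset (Fin n), pr (fun ω => (T.Nonempty ∧ 10 * T.card < n) ∧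
      ssum (sparseZ T) ω = 0) ≤ (1 / 4) ^ T.card * (3 / 5) ^ n := fun T => by
    rw [pr_const_and]
    refine ind_mul_le (by positivity) fun ⟨⟨i, hi⟩, h⟩ => (sparse_pt T hi).trans ?_
    have a1 : (5 / 6 : ℝ) ^ n ≤ (1 / 4) ^ T.card :=
      (pow_le_pow_of_le_one (by norm_num) (by norm_num) h.le).trans (by
        rw [pow_mul]; exact pow_le_pow_left₀ (by positivity) (by norm_num) _)
    refine le_trans (le_of_eq ?_) (mul_le_mul_of_nonneg_right a1 (by positivity))
    rw [← mul_pow, ← one_div_pow]; norm_num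
  refine (Finset.sum_le_sum fun T _ => h1 T).trans (le_of_eq ?_)
  have h2 := Fintype.sum_pow_mul_eq_add_pow (Fin n) (1 / 4 : ℝ) 1
  simp only [one_pow, mul_one, Fintype.card_fin] at h2
  rw [← Finset.sum_mul, h2, ← mul_pow]; norm_num

end Vale.Agent.P160
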