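import Vale.Agent.P160.Scale
import Vale.Agent.P160.Sparse
import Vale.Agent.P160.Red

/-! The first bad scale. -/

open Finset

namespace Vale.Agent.P160

theorem hens_of_kernel {n q : ℕ} [NeZero q] {ω : Sym2 (Fin n) → Bool} {v : Fin n → ℤ}
    (h : (Bm ω).mulVec v = 0) : Hens q (fun i => (((v i : ZMod q)).val : ℤ)) ω := by
  have hv : ∀ i, ∑ j, Bm ω i j * v j = 0 := fun i => congrFun h i
  have hs : ∀ i j, Bm ω i j = Bm ω j i := fun i j => by
    simp only [Bm, Matrix.of_apply, Sym2.eq_swap (a := i)]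
  obtain ⟨d, hd⟩ : ∃ d : Fin n → ℤ, ∀ i, (((v i : ZMod q)).val : ℤ) = v i + q * d i :=
    ⟨fun i => -(v i / q), fun i => by rw [ZMod.val_intCast, Int.emod_def]; ring⟩
  have h1 : ∀ i, ∑ j, Bm ω i j * (v j + q * d j) = q * ∑ j, Bm ω i j * d j := fun i => by
    simp only [mul_add, Finset.sum_add_distrib, hv, zero_add, Finset.mul_sum]
    exact Finset.sum_congr rfl fun j _ => by ring
  have h2 : ∑ i, v i * ∑ j, Bm ω i j * d j = 0 := by
    simp only [Finset.mul_sum]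
    rw [Finset.sum_comm]
    refine Finset.sum_eq_zero fun j _ => ?_
    rw [← mul_zero (d j), ← hv j, Finset.mul_sum]
    exact Finset.sum_congr rfl fun i _ => by rw [hs i j]; ring
  simp only [Hens, hd, ← Finset.mul_sum, h1]
  refine ⟨fun i => dvd_mul_right _ _, ∑ i, d i * ∑ j, Bm ω i j * d j, ?_⟩
  rw [← zero_add (_ * _), ← mul_zero (q : ℤ), ← h2, Finset.mul_sum, Finset.mul_sum,
    ← Finset.sum_add_distrib]
  exact Finset.sum_congr rfl fun i _ => by ring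

theorem gd_one {ι : Type} [DecidableEq ι] {K η : ℝ} {c s : ℕ} (hK : 4 ≤ K) (hc : 2 ≤ c)
    (hη : 0 ≤ η) (v : ι → ZMod (2 ^ 1)) : Gd K c η s 1 v := by
  refine fun S _ => ⟨fun x => (pr_le_one _).trans ?_, fun σ => le_trans (le_of_eq
    (Finset.sum_eq_zero fun θ _ => ?_)) hη⟩
  · rw [le_div_iff₀ (by positivity)]
    norm_num [hK]
  · obtain ⟨d, rfl⟩ := Nat.exists_eq_add_of_le hc
    have : (2 : ZMod (2 ^ (1 + 1))) ^ 2 = 0 := by decide
    rw [ind_neg (not_not.2 (by rw [pow_add _ 2 d, this, zero_mul, zero_mul])), zero_mul]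

theorem cases_odd {j : ℕ} (hj : 1 ≤ j) (x : ℤ) : Odd (x : ZMod (2 ^ j)).val ↔ Odd x := by
  rw [← Int.odd_coe_nat, ZMod.val_intCast, Int.odd_iff, Int.odd_iff, Int.emod_emod_of_dvd _
    (by exact_mod_cast dvd_pow_self 2 (by omega))]

theorem cases {n : ℕ} {K η β : ℝ} {c K₀ l s : ℕ} (hN : Num n K η β c K₀ l s) {T : ℝ} (hT : 0 ≤ T)
    (hbad : ∀ j, j + 1 ≤ l → ∀ S : Finset (Fin n), S.card = s →
      ∑ w : S → ZMod (2 ^ (j + 1 + 1)), ind (¬GoodOn K c η w) ≤ (2 ^ (j + 1 + 1)) ^ s * T) :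
    pr (fun ω : Sym2 (Fin n) → Bool => (Bm ω).det = 0) ≤
      (3 / 4) ^ n + l * 2 ^ n * (50000 * K * β ^ n * 4 ^ s * T) + 100000 * K * β ^ n / 4 ^ l := by
  classical
  have hK : (0 : ℝ) ≤ K := le_trans (by norm_num) hN.K_le
  have hβ : 0 ≤ β := by
    have h1 : (1 : ℝ) / 4 ^ c ≤ 1 := div_le_one_of_le₀ (one_le_pow₀ (by norm_num)) (by positivity)
    have h2 : (0 : ℝ) ≤ 1 - 1 / 4 ^ c := by linarith
    have h3 : (0 : ℝ) ≤ 2 ^ c * (1 - 1 / 4 ^ c) ^ (n / 50) := by positivity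
    linarith [hN.beta, hN.η_le]
  obtain ⟨m, rfl⟩ : ∃ m, l = m + 1 := ⟨l - 1, by have := hN.l_pos; omega⟩
  let B : (j : ℕ) → (S : Finset (Fin n)) → (S → ZMod (2 ^ j)) → Prop := fun j S x =>
    ∃ w : S → ZMod (2 ^ (j + 1 + 1)), ¬GoodOn K c η w ∧
      x = fun k => ZMod.castHom (pow_dvd_pow 2 (by omega)) (ZMod (2 ^ j)) (w k)
  let C : (j : ℕ) → Prop → (Fin n → ZMod (2 ^ j)) → (Sym2 (Fin n) → Bool) → Prop := fun j p v ω =>
    (Gd K c η s j v ∧ n ≤ 10 * (odds v).card ∧ p) ∧ Hens (2 ^ j) (fun i => ((v i).val : ℤ)) ω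
  let E₁ : Fin (m + 1) × Finset (Fin n) → (Sym2 (Fin n) → Bool) → Prop := fun P ω =>
    (1 ≤ P.1.1 ∧ P.2.card = s) ∧ ∃ v, C P.1 (B P.1 P.2 fun k => v k) v ω
  let E₂ : (Sym2 (Fin n) → Bool) → Prop := fun ω => (2 : ℝ) ^ m ≤ ∑ v, ind (C (m + 1) True v ω)
  have h1 : ∀ P, pr (E₁ P) ≤ 50000 * K * β ^ n * 4 ^ s * T := fun ⟨j, S⟩ => by
    simp only [E₁, C]
    rw [pr_const_and]
    refine ind_mul_le (by positivity) fun ⟨a1, a2⟩ => (pr_exists _).trans ?_
    simp only [pr_const_and]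
    refine (scale hN a1 j.2.le S (.inr a2) (B j S)).trans ?_
    have a3 : ∑ x, ind (B j S x) ≤ (2 ^ (j.1 + 1 + 1)) ^ s * T := by
      refine le_trans ((Finset.sum_le_sum fun x _ => ind_exists _).trans ?_) (hbad j j.2 S a2)
      rw [Finset.sum_comm]
      refine Finset.sum_le_sum fun w _ => le_of_eq ?_
      simp only [ind_and, ← Finset.mul_sum]
      simp [ind_eq_ite]
    rw [a2, div_le_iff₀ (by positivity)]
    refine (mul_le_mul_of_nonneg_left a3 (by positivity)).trans ?_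
    have a4 : ((2 : ℝ) ^ j.1) ^ s ≤ (2 ^ j.1) ^ (s + 1) :=
      pow_le_pow_right₀ (one_le_pow₀ (by norm_num)) (by omega)
    refine le_trans (le_of_eq ?_) (mul_le_mul_of_nonneg_left a4 (by positivity))
    rw [pow_succ, pow_succ, mul_assoc (2 ^ j.1 : ℝ), mul_pow]
    norm_num
    ring
  have h2 : pr E₂ ≤ 100000 * K * β ^ n / 4 ^ (m + 1) := by
    have a1 := scale hN (by omega : 1 ≤ m + 1) le_rfl ∅ (.inl rfl) fun _ => True
    rw [ind_pos trivial, Finset.sum_const, card_univ, Fintype.card_fun, Fintype.card_coe,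
      card_empty, pow_zero, one_smul] at a1
    simp only [← pr_const_and] at a1
    rw [sum_pr] at a1
    have a2 : pr E₂ * 2 ^ m ≤ _ := le_trans (by
      rw [pr, div_mul_eq_mul_div, Finset.sum_mul]
      exact div_le_div_of_nonneg_right (Finset.sum_le_sum fun ω _ => ind_mul_le
        (Finset.sum_nonneg fun _ _ => ind_nonneg _) id) (Nat.cast_nonneg _)) a1
    refine ((le_div_iff₀ (by positivity)).2 a2).trans (le_of_eq ?_)
    rw [show (4 : ℝ) = 2 * 2 by norm_num, mul_pow]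
    field_simp
    ring
  refine le_trans (pr_mono (q := fun ω => (_ ∨ ∃ P, E₁ P ω) ∨ E₂ ω) fun ω h => ?_)
    ((pr_or _ _).trans (add_le_add ((pr_or _ _).trans (add_le_add (sparse n)
    ((pr_exists _).trans ((Finset.sum_le_sum fun P _ => h1 P).trans (le_of_eq ?_))))) h2))
  swap
  · simp
  obtain ⟨v, ⟨i, hi⟩, hv⟩ := exists_kernel _ h
  by_cases hsp : 10 * (univ.filter fun i => Odd (v i)).card < n
  · exact .inl (.inl ⟨v, ⟨i, hi⟩, hsp, hv⟩)
  have hC : ∀ j, 1 ≤ j → ∀ a : ℤ, Odd a → ∀ p : Prop, p →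
      Gd K c η s j (fun i => ((a * v i : ℤ) : ZMod (2 ^ j))) →
      C j p (fun i => ((a * v i : ℤ) : ZMod (2 ^ j))) ω := fun j hj a ha p hp hg => by
    refine ⟨⟨hg, (not_lt.1 hsp).trans (le_of_eq ?_), hp⟩, hens_of_kernel (v := fun i => a * v i) ?_⟩
    · simp only [odds, cases_odd hj, Int.odd_mul, ha, true_and]
    · exact ((Bm ω).mulVec_smul a v).trans (by rw [hv, smul_zero])
  let P : ℕ → Prop := fun j => ∀ a : ℤ, Odd a →
    Gd K c η s j fun i => ((a * v i : ℤ) : ZMod (2 ^ j))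
  by_cases hP : ∀ j, 1 ≤ j → j < m + 1 → P j → P (j + 1)
  · have hP' : ∀ j, j ≤ m → P (j + 1) := fun j hj => by
      induction j with
      | zero => exact fun a _ => gd_one hN.K_le hN.c_le hN.η_le _
      | succ j ih => exact hP _ (by omega) (by omega) (ih (by omega))
    refine .inr ?_
    simp only [E₂]
    rw [sum_ind]
    have := Finset.card_le_card_of_injOn (s := range (2 ^ m))
      (t := univ.filter fun u => C (m + 1) True u ω)
      (fun (a : ℕ) i => (((2 * a + 1) * v i : ℤ) : ZMod (2 ^ (m + 1))))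
      (fun a _ => mem_coe.2 (mem_filter.2 ⟨mem_univ _, hC _ (by omega) _ (odd_two_mul_add_one _) _
        trivial (hP' m le_rfl _ (odd_two_mul_add_one _))⟩)) fun a ha b hb hab => by
        have b1 := (ZMod.intCast_eq_intCast_iff_dvd_sub _ _ _).1 (congrFun hab i)
        rw [← sub_mul, show (2 * b + 1 - (2 * a + 1) : ℤ) = (b - a) * 2 by ring, mul_right_comm,
          pow_succ, Nat.cast_mul, Nat.cast_pow, Nat.cast_ofNat,
          mul_dvd_mul_iff_right two_ne_zero] at b1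
        have b2 := (Int.isCoprime_two_left.2 hi).pow_left.dvd_of_dvd_mul_right b1
        have b3 : (a : ℤ) < 2 ^ m := by exact_mod_cast mem_range.1 (mem_coe.1 ha)
        have b4 : (b : ℤ) < 2 ^ m := by exact_mod_cast mem_range.1 (mem_coe.1 hb)
        have := Int.eq_zero_of_abs_lt_dvd b2 (abs_lt.2 ⟨by omega, by omega⟩)
        omega
    rw [card_range] at this
    exact_mod_cast this
  · simp only [not_forall, P, Gd, Good] at hP
    obtain ⟨j, a1, a2, a3, a, ha, S, a4, a5⟩ := hP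
    refine .inl (.inr ⟨(⟨j, a2⟩, S), ⟨a1, a4⟩, _, hC j a1 a ha _ ⟨_, a5, ?_⟩ (a3 a ha)⟩)
    funext k
    rw [map_intCast, ZMod.intCast_eq_intCast_iff', ZMod.val_intCast, Int.emod_emod_of_dvd _
      (Int.natCast_dvd_natCast.2 (pow_dvd_pow 2 (by omega)))]

end Vale.Agent.P160
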