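import Vale.Agent.P160.Mono
import Vale.Agent.P160.Bad2X1

/-! Negative correlation, small codimension. -/

open Finset

namespace Vale.Agent.P160

variable {J : Type} [Fintype J] [DecidableEq J]

theorem ncs_odd {x : ℤ} (h : Odd x) : (x : ZMod 2) = 1 := by
  obtain ⟨y, rfl⟩ := h
  push_cast
  rw [show (2 : ZMod 2) = 0 from rfl, zero_mul, zero_add]

theorem ncs_rank : Module.finrank (ZMod 2) (Vx J) = Fintype.card J + 1 := by
  simp [Module.finrank_prod]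

theorem finrank_V0 {t : J → ℤ} (ht : ∃ b, Odd (t b)) :
    Module.finrank (ZMod 2) (V0 t) = Fintype.card J := by
  obtain ⟨b, hb⟩ := ht
  have h1 : ((Pi.single b 1, 0) : Vx J) ∉ V0 t := by
    rw [mem_V0, sum_eq_single b (fun a _ h => by simp [Pi.single_eq_of_ne h]) (by simp)]
    simp [ncs_odd hb]
  have h2 : V0 t ⊔ Submodule.span (ZMod 2) {(Pi.single b 1, 0)} = ⊤ := by
    refine eq_top_iff.2 fun v _ => Submodule.mem_sup.2 ⟨v - (∑ a, v.1 a * (t a : ZMod 2)) •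
      (Pi.single b 1, 0), ?_, _, Submodule.smul_mem _ _ (Submodule.subset_span rfl),
      sub_add_cancel _ _⟩
    rw [mem_V0]
    simp only [Prod.fst_sub, Prod.smul_fst, Pi.sub_apply, Pi.smul_apply, smul_eq_mul, sub_mul,
      sum_sub_distrib]
    rw [sum_eq_single b (f := fun a => _ * _ * (t a : ZMod 2))
      (fun a _ h => by simp [Pi.single_eq_of_ne h]) (by simp)]
    simp [ncs_odd hb]
  have h3 := Submodule.finrank_sup_span_singleton h1
  rw [h2, finrank_top, ncs_rank] at h3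
  exact (Nat.add_right_cancel h3).symm

theorem ex_mem_V0 {j : ℕ} (hj : 1 ≤ j) {t : J → ℤ} {r : Row J} (h : ((2 ^ j : ℕ) : ℤ) ∣ rd t r) :
    ex (2 ^ j) t r ∈ V0 t := by
  have h1 : ((2 : ℕ) : ℤ) ∣ rd t r :=
    (Int.natCast_dvd_natCast.2 (dvd_pow_self 2 (Nat.one_le_iff_ne_zero.1 hj))).trans h
  rw [← ZMod.intCast_zmod_eq_zero_iff_dvd, rd] at h1
  simpa [mem_V0, ex] using h1

theorem ncs_sum {V ι : Type} [AddCommGroup V] (χ : AddChar V ℂ) (s : Finset ι) (f : ι → V) :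
    χ (∑ i ∈ s, f i) = ∏ i ∈ s, χ (f i) := by
  classical
  induction s using Finset.induction_on with
  | empty => simp
  | insert i s hi ih => rw [sum_insert hi, prod_insert hi, AddChar.map_add_eq_mul, ih]

theorem ncs_prod (χ : AddChar (Vx J) ℂ) (v : Vx J) :
    χ v = (∏ b, χ (Pi.single b (v.1 b), 0)) * χ (0, v.2) := by
  rw [← ncs_sum, ← AddChar.map_add_eq_mul]
  refine congrArg χ (Prod.ext ?_ ?_)
  · simp [Prod.fst_sum, univ_sum_single]
  · simp [Prod.snd_sum]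

theorem ncs_sign (χ : AddChar (Vx J) ℂ) (v : Vx J) : χ v = 1 ∨ χ v = -1 := by
  rw [← mul_self_eq_one_iff, ← AddChar.map_add_eq_mul, ← two_smul (ZMod 2),
    show (2 : ZMod 2) = 0 from rfl, zero_smul, AddChar.map_zero_eq_one]

theorem ncs_ext {χ χ' : AddChar (Vx J) ℂ} (h1 : ∀ b, χ (Pi.single b 1, 0) = χ' (Pi.single b 1, 0))
    (h2 : χ (0, 1) = χ' (0, 1)) : χ = χ' := by
  have hz : ∀ x : ZMod 2, x = 0 ∨ x = 1 := by decide
  refine DFunLike.ext _ _ fun v => ?_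
  rw [ncs_prod χ, ncs_prod χ']
  refine congrArg₂ _ (prod_congr rfl fun b _ => ?_) ?_
  · rcases hz (v.1 b) with h | h <;> simp [h, h1, Prod.mk_zero_zero]
  · rcases hz v.2 with h | h <;> simp [h, h2, Prod.mk_zero_zero]

theorem ncs_ind (j : ℕ) (χ : AddChar (Vx J) ℂ) (R : ℤ) :
    (ind (((2 ^ j : ℕ) : ℤ) ∣ R) : ℂ) * χ (0, ((R / (2 ^ j : ℕ) : ℤ) : ZMod 2)) * 2 ^ (j + 1) =
      ∑ θ : ZMod (2 ^ (j + 1)), (1 + χ (0, 1) * ZMod.stdAddChar (-(θ * 2 ^ j))) *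
        ZMod.stdAddChar (θ * (R : ZMod (2 ^ (j + 1)))) := by
  have e : ∀ θ : ZMod (2 ^ (j + 1)), (1 + χ (0, 1) * ZMod.stdAddChar (-(θ * 2 ^ j))) *
      ZMod.stdAddChar (θ * (R : ZMod (2 ^ (j + 1)))) = ZMod.stdAddChar (θ * (R : ZMod (2 ^ (j + 1)))) +
        χ (0, 1) * ZMod.stdAddChar (θ * ((R - 2 ^ j : ℤ) : ZMod (2 ^ (j + 1)))) := fun θ => by
    rw [add_mul, one_mul, mul_assoc, ← AddChar.map_add_eq_mul, Int.cast_sub, Int.cast_pow,
      Int.cast_ofNat, mul_sub, neg_add_eq_sub]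
  simp only [e, sum_add_distrib, ← mul_sum, AddChar.sum_mulShift _ (ZMod.isPrimitive_stdAddChar _),
    ZMod.intCast_zmod_eq_zero_iff_dvd, ZMod.card]
  have q0 : (2 : ℤ) ^ j ≠ 0 := by positivity
  push_cast
  by_cases h : (2 : ℤ) ^ j ∣ R
  · obtain ⟨m, rfl⟩ := h
    rw [ind_pos (dvd_mul_right _ _), Int.mul_ediv_cancel_left _ q0, ← mul_sub_one]
    simp only [pow_succ, mul_dvd_mul_iff_left q0]
    rcases Int.even_or_odd m with hm | hm
    · rw [if_pos hm.two_dvd, if_neg (by obtain ⟨y, rfl⟩ := hm; omega),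
        (ZMod.intCast_zmod_eq_zero_iff_dvd m 2).2 hm.two_dvd, Prod.mk_zero_zero]
      simp
    · rw [if_neg (by obtain ⟨y, rfl⟩ := hm; omega), if_pos (by obtain ⟨y, rfl⟩ := hm; omega),
        ncs_odd hm]
      simp
  · rw [ind_neg h, if_neg fun h' => h ((pow_dvd_pow 2 j.le_succ).trans h'),
      if_neg fun h' => h (by simpa using ((pow_dvd_pow 2 j.le_succ).trans h').add (dvd_refl _))]
    simp

theorem ncs_mu {Q : ℕ} [NeZero Q] (χ : AddChar (Vx J) ℂ) (b : J) (θ : ZMod Q) (t : ℤ) :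
    ∑ x : Bool, ∑ y : Bool, χ (Pi.single b (((if x then 1 else 0) - if y then 1 else 0 : ℤ) :
      ZMod 2), 0) * ZMod.stdAddChar (θ * ((((if x then 1 else 0) - if y then 1 else 0) * t : ℤ) :
        ZMod Q)) = 4 * mu (decide (χ (Pi.single b 1, 0) = -1)) (θ * (t : ZMod Q)) := by
  have h1 := Complex.conj_mul' (ZMod.stdAddChar (θ * (t : ZMod Q)))
  rw [AddChar.norm_apply, ← AddChar.map_neg_eq_conj] at h1
  rw [mu, Complex.ofReal_div, Complex.ofReal_pow, ← Complex.conj_mul', map_add, map_mul,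
    ← AddChar.map_neg_eq_conj]
  simp only [Fintype.sum_bool, if_true, Bool.false_eq_true, if_false, sub_self, sub_zero, zero_sub,
    Int.cast_zero, Int.cast_one, Int.cast_neg, Pi.single_zero, Prod.mk_zero_zero, zero_mul, mul_zero,
    AddChar.map_zero_eq_one, one_mul, neg_mul, mul_neg, show (-1 : ZMod 2) = 1 from rfl]
  rcases ncs_sign χ (Pi.single b 1, 0) with h | h
  · rw [h, decide_eq_false (by norm_num)]
    simp only [Bool.false_eq_true, if_false, map_one]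
    push_cast at h1 ⊢
    linear_combination -h1
  · rw [h, decide_eq_true rfl]
    simp only [if_true, map_neg, map_one]
    push_cast at h1 ⊢
    linear_combination -h1

theorem ncs_four (j : ℕ) (χ : AddChar (Vx J) ℂ) (t : J → ℤ) :
    (∑ r : Row J, (ind (((2 ^ j : ℕ) : ℤ) ∣ rd t r) : ℂ) * χ (ex (2 ^ j) t r)) * 2 ^ (j + 1) =
      4 ^ Fintype.card J * ∑ θ : ZMod (2 ^ (j + 1)),
        (1 + χ (0, 1) * ZMod.stdAddChar (-(θ * 2 ^ j))) *
          ((∏ b, mu (decide (χ (Pi.single b 1, 0) = -1)) (θ * (t b : ZMod (2 ^ (j + 1)))) : ℝ) : ℂ) := by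
  have e : ∀ r : Row J, (ind (((2 ^ j : ℕ) : ℤ) ∣ rd t r) : ℂ) * χ (ex (2 ^ j) t r) * 2 ^ (j + 1) =
      ∑ θ : ZMod (2 ^ (j + 1)), (1 + χ (0, 1) * ZMod.stdAddChar (-(θ * 2 ^ j))) *
        ∏ b, χ (Pi.single b (rv r b : ZMod 2), 0) *
          ZMod.stdAddChar (θ * ((rv r b * t b : ℤ) : ZMod (2 ^ (j + 1)))) := fun r => by
    rw [ncs_prod χ, mul_left_comm, mul_assoc]
    refine (congrArg (_ * ·) (ncs_ind j χ (rd t r))).trans ?_
    rw [mul_sum]
    refine sum_congr rfl fun θ _ => ?_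
    rw [prod_mul_distrib, ← ncs_sum (ZMod.stdAddChar (N := 2 ^ (j + 1))), ← mul_sum, ← Int.cast_sum, mul_left_comm]
    rfl
  rw [sum_mul, sum_congr rfl fun r _ => e r, sum_comm, mul_sum]
  refine sum_congr rfl fun θ _ => ?_
  rw [← mul_sum, mul_left_comm, Complex.ofReal_prod, ← card_univ, ← prod_const, ← prod_mul_distrib]
  simp only [← ncs_mu, prod_univ_sum, Fintype.piFinset_univ, Fintype.sum_prod_type, rv]

theorem ncs_lo {j c : ℕ} (hc : 1 ≤ c) {θ : ZMod (2 ^ (j + 1))} (h1 : 2 ^ c * θ = 0)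
    (h2 : 2 * θ ≠ 0) {t : ℤ} (ht : Odd t) (σ : Bool) : mu σ (θ * (t : ZMod (2 ^ (j + 1)))) ≤ 1 - 1 / 4 ^ c := by
  have hu : IsUnit (t : ZMod (2 ^ (j + 1))) := (ZMod.coe_int_isUnit_iff_isCoprime _ _).2 (by
    push_cast
    exact (Int.isCoprime_two_left.2 ht).pow_left)
  have s2 : (if σ then -1 else 1 : ℂ) ^ 2 = 1 := by cases σ <;> simp
  have z1 : (if σ then -1 else 1) * ZMod.stdAddChar (θ * (t : ZMod (2 ^ (j + 1)))) ≠ 1 := fun h => by
    have := congrArg (· ^ 2) h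
    simp only [mul_pow, s2, one_mul, one_pow, ← AddChar.map_nsmul_eq_pow] at this
    rw [← (ZMod.stdAddChar (N := 2 ^ (j + 1))).map_zero_eq_one, ZMod.injective_stdAddChar.eq_iff,
      nsmul_eq_mul, ← mul_assoc, hu.mul_left_eq_zero] at this
    exact h2 (by simpa using this)
  have z2 : ((if σ then -1 else 1) * ZMod.stdAddChar (θ * (t : ZMod (2 ^ (j + 1))))) ^ 2 ^ c = 1 := by
    obtain ⟨c, rfl⟩ := Nat.exists_eq_add_of_le' hc
    rw [mul_pow, ← AddChar.map_nsmul_eq_pow, nsmul_eq_mul, ← mul_assoc, Nat.cast_pow, Nat.cast_ofNat,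
      h1, zero_mul, AddChar.map_zero_eq_one, mul_one, pow_succ', pow_mul, s2, one_pow]
  have h3 := bad2_geo (bad2_norm σ (θ * (t : ZMod (2 ^ (j + 1))))) (2 ^ c)
  rw [geom_sum_eq z1, z2, sub_self, zero_div, norm_zero, zero_add] at h3
  have e4 : (4 : ℝ) ^ c = (2 ^ c) ^ 2 := by rw [← pow_mul, mul_comm, pow_mul]; norm_num
  have N0 : (0 : ℝ) < 2 ^ c := by positivity
  rw [bad2_mu, e4]
  push_cast at h3
  generalize ‖1 - (if σ then -1 else 1) * ZMod.stdAddChar (θ * (t : ZMod (2 ^ (j + 1))))‖ = w at h3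
  generalize (2 : ℝ) ^ c = N at *
  have h4 : 2 ≤ N * w := le_of_mul_le_mul_left (by linarith) (half_pos N0)
  refine sub_le_sub_left ?_ _
  rw [div_le_div_iff₀ (by positivity) (by norm_num)]
  nlinarith

theorem ncs_triv {j : ℕ} (hj : 1 ≤ j) {θ : ZMod (2 ^ (j + 1))} (h : 2 * θ = 0) (t : J → ℤ)
    (χ : AddChar (Vx J) ℂ) (h0 : (1 + χ (0, 1) * ZMod.stdAddChar (-(θ * 2 ^ j))) *
      ((∏ b, mu (decide (χ (Pi.single b 1, 0) = -1)) (θ * (t b : ZMod (2 ^ (j + 1)))) : ℝ) : ℂ) ≠ 0) :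
    χ (0, 1) = 1 ∧ ∀ b, χ (Pi.single b 1, 0) = ZMod.stdAddChar (θ * (t b : ZMod (2 ^ (j + 1)))) := by
  obtain ⟨h1, h2⟩ := mul_ne_zero_iff.1 h0
  refine ⟨(ncs_sign χ _).resolve_right fun h3 => h1 ?_, fun b => ?_⟩
  · rw [h3, ← mul_pow_sub_one (Nat.one_le_iff_ne_zero.1 hj) (2 : ZMod _), ← mul_assoc, mul_comm θ,
      h]
    simp
  · have h3 := prod_ne_zero_iff.1 (Complex.ofReal_ne_zero.1 h2) b (mem_univ b)
    have h4 : ZMod.stdAddChar (θ * (t b : ZMod (2 ^ (j + 1)))) = 1 ∨ ZMod.stdAddChar (θ * (t b : ZMod (2 ^ (j + 1)))) = -1 := by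
      rw [← mul_self_eq_one_iff, ← AddChar.map_add_eq_mul, ← add_mul, ← two_mul, h, zero_mul,
        AddChar.map_zero_eq_one]
    rw [mu] at h3
    rcases ncs_sign χ (Pi.single b 1, 0) with h5 | h5 <;> rcases h4 with h4 | h4 <;>
      rw [h4, h5] at h3 ⊢ <;> norm_num at h3

theorem ncs_card {Q : ℕ} [NeZero Q] {n : ℕ} (hn : 0 < n) :
    ∑ θ : ZMod Q, ind ((n : ZMod Q) * θ = 0) ≤ n := by
  rw [sum_ind]
  simpa only [nsmul_eq_mul, Nat.cast_le] using IsAddCyclic.card_nsmul_eq_zero_le (α := ZMod Q) hn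

theorem nc_small {j c o : ℕ} (hj : 1 ≤ j) (hc : 1 ≤ c) {η : ℝ} (t : J → ℤ)
    (ho : o ≤ (univ.filter fun b => Odd (t b)).card)
    (hhi : ∀ σ, hi c (fun b => (t b : ZMod (2 ^ (j + 1)))) σ ≤ η)
    (U : Submodule (ZMod 2) (Vx J)) (hU : Module.finrank (ZMod 2) U ≤ Fintype.card J) :
    prU (2 ^ j) t U ≤ (1 / 2 ^ (Fintype.card J - Module.finrank (ZMod 2) U) +
      (η + 2 ^ c * (1 - 1 / 4 ^ c) ^ o)) / 2 ^ j := by
  classical
  have : Fintype (Vx J ⧸ U) := Fintype.ofFinite _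
  have hk : Fintype.card (Vx J ⧸ U) = 2 ^ (Fintype.card J - Module.finrank (ZMod 2) U + 1) := by
    have := U.finrank_quotient_add_finrank
    rw [ncs_rank] at this
    rw [← Nat.card_eq_fintype_card, Module.natCard_eq_pow_finrank (K := ZMod 2), Nat.card_zmod]
    exact congrArg _ (by omega)
  generalize Fintype.card J - Module.finrank (ZMod 2) U = k at hk
  let χ : AddChar (Vx J ⧸ U) ℂ → AddChar (Vx J) ℂ := fun ψ =>
    ψ.compAddMonoidHom U.mkQ.toAddMonoidHom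
  let T : AddChar (Vx J ⧸ U) ℂ → ZMod (2 ^ (j + 1)) → ℂ := fun ψ θ =>
    (1 + χ ψ (0, 1) * ZMod.stdAddChar (-(θ * 2 ^ j))) *
      ((∏ b, mu (decide (χ ψ (Pi.single b 1, 0) = -1)) (θ * (t b : ZMod (2 ^ (j + 1)))) : ℝ) : ℂ)
  have r0 : (0 : ℝ) ≤ 1 - 1 / 4 ^ c :=
    sub_nonneg.2 (div_le_one_of_le₀ (one_le_pow₀ (by norm_num)) (by positivity))
  have m0 : ∀ (σ : J → Bool) (θ : ZMod (2 ^ (j + 1))), 0 ≤ ∏ b, mu (σ b) (θ * (t b : ZMod (2 ^ (j + 1)))) :=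
    fun σ θ => prod_nonneg fun _ _ => mu_nonneg _ _
  have t1 : ∀ ψ θ, ‖T ψ θ‖ ≤ 2 * ∏ b, mu (decide (χ ψ (Pi.single b 1, 0) = -1)) (θ * (t b : ZMod (2 ^ (j + 1)))) :=
    fun ψ θ => by
      rw [norm_mul, Complex.norm_real, Real.norm_of_nonneg (m0 _ _)]
      refine mul_le_mul_of_nonneg_right ((norm_add_le _ _).trans (le_of_eq ?_)) (m0 _ _)
      rw [norm_mul, AddChar.norm_apply, AddChar.norm_apply]
      norm_num
  have t2 : ∀ θ, ind (((2 : ℕ) : ZMod (2 ^ (j + 1))) * θ = 0) * ∑ ψ, ‖T ψ θ‖ ≤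
      ind (((2 : ℕ) : ZMod (2 ^ (j + 1))) * θ = 0) * 2 := fun θ => by
    refine ind_mul_le (mul_nonneg (ind_nonneg _) zero_le_two) fun h => ?_
    rw [ind_pos h, one_mul]
    by_cases h0 : ∃ ψ, T ψ θ ≠ 0
    · obtain ⟨ψ, h0⟩ := h0
      rw [sum_eq_single ψ (fun ψ' _ h1 => ?_) (by simp)]
      · exact (t1 ψ θ).trans (mul_le_of_le_one_right zero_le_two
          (prod_le_one (fun _ _ => mu_nonneg _ _) fun _ _ => mu_le_one _ _))
      · by_contra h2
        obtain ⟨a1, a2⟩ := ncs_triv hj (by simpa using h) t _ h0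
        obtain ⟨b1, b2⟩ := ncs_triv hj (by simpa using h) t _ (norm_ne_zero_iff.1 h2)
        have := ncs_ext (fun b => (b2 b).trans (a2 b).symm) (b1.trans a1.symm)
        refine h1 (DFunLike.ext _ _ fun v => ?_)
        obtain ⟨v, rfl⟩ := U.mkQ_surjective v
        exact DFunLike.congr_fun this v
    · simp [not_exists_not.1 h0]
  have t3 : ∀ ψ θ, ‖T ψ θ‖ ≤ 2 * (ind (2 ^ c * θ ≠ 0) *
      ∏ b, mu (decide (χ ψ (Pi.single b 1, 0) = -1)) (θ * (t b : ZMod (2 ^ (j + 1)))) +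
      ind (((2 ^ c : ℕ) : ZMod (2 ^ (j + 1))) * θ = 0) * (1 - 1 / 4 ^ c) ^ o) +
      ind (((2 : ℕ) : ZMod (2 ^ (j + 1))) * θ = 0) * ‖T ψ θ‖ := fun ψ θ => by
    have p1 := mul_nonneg (ind_nonneg (2 ^ c * θ ≠ 0)) (m0 (fun b =>
      decide (χ ψ (Pi.single b 1, 0) = -1)) θ)
    have p2 := mul_nonneg (ind_nonneg (((2 ^ c : ℕ) : ZMod (2 ^ (j + 1))) * θ = 0)) (pow_nonneg r0 o)
    have p3 : 0 ≤ ind (((2 : ℕ) : ZMod (2 ^ (j + 1))) * θ = 0) * ‖T ψ θ‖ :=
      mul_nonneg (ind_nonneg _) (norm_nonneg _)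
    have p4 := t1 ψ θ
    by_cases h2 : ((2 : ℕ) : ZMod (2 ^ (j + 1))) * θ = 0
    · rw [ind_pos h2]; linarith
    by_cases h1 : 2 ^ c * θ = 0
    · have p5 : ∏ b, mu (decide (χ ψ (Pi.single b 1, 0) = -1)) (θ * (t b : ZMod (2 ^ (j + 1)))) ≤ (1 - 1 / 4 ^ c) ^ o := by
        refine (prod_le_prod_of_subset_of_le_one (filter_subset (fun b => Odd (t b)) _)
          (fun _ _ => mu_nonneg _ _) fun _ _ _ => mu_le_one _ _).trans ((prod_le_prod
          (fun _ _ => mu_nonneg _ _) fun b hb => ncs_lo hc h1 (by simpa using h2)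
            (mem_filter.1 hb).2 _).trans ?_)
        rw [prod_const]
        exact pow_le_pow_of_le_one r0 (sub_le_self _ (by positivity)) ho
      rw [ind_pos (p := ((2 ^ c : ℕ) : ZMod (2 ^ (j + 1))) * θ = 0) (by simpa using h1), one_mul]
      exact (p4.trans (mul_le_mul_of_nonneg_left (p5.trans (le_add_of_nonneg_left p1))
        zero_le_two)).trans (le_add_of_nonneg_right p3)
    · rw [ind_pos h1, one_mul]
      exact (p4.trans (mul_le_mul_of_nonneg_left (le_add_of_nonneg_right p2)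
        zero_le_two)).trans (le_add_of_nonneg_right p3)
  have t4 : ∑ ψ, ∑ θ, ‖T ψ θ‖ ≤ 2 ^ (k + 1) * (2 * (η + 2 ^ c * (1 - 1 / 4 ^ c) ^ o)) + 4 := by
    refine (sum_le_sum fun ψ _ => sum_le_sum fun θ _ => t3 ψ θ).trans ?_
    simp only [sum_add_distrib]
    refine add_le_add ((sum_le_card_nsmul _ _ (2 * (η + 2 ^ c * (1 - 1 / 4 ^ c) ^ o))
      fun ψ _ => ?_).trans (le_of_eq ?_)) ?_
    · rw [← mul_sum, sum_add_distrib, ← sum_mul]
      refine mul_le_mul_of_nonneg_left (add_le_add (hhi _) (mul_le_mul_of_nonneg_right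
        ((ncs_card (by positivity)).trans (by norm_num)) (pow_nonneg r0 o))) zero_le_two
    · rw [card_univ, AddChar.card_eq, hk, nsmul_eq_mul, Nat.cast_pow, Nat.cast_ofNat]
    · rw [sum_comm]
      simp only [← mul_sum]
      refine (sum_le_sum fun θ _ => t2 θ).trans ?_
      have := ncs_card (Q := 2 ^ (j + 1)) two_pos
      rw [← sum_mul]
      push_cast at this ⊢
      linarith
  have t5 : (((∑ r : Row J, ind (((2 ^ j : ℕ) : ℤ) ∣ rd t r ∧ ex (2 ^ j) t r ∈ U)) *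
      (2 ^ (k + 1) * 2 ^ (j + 1)) : ℝ) : ℂ) = 4 ^ Fintype.card J * ∑ ψ, ∑ θ, T ψ θ := by
    rw [mul_sum]
    simp only [T, ← ncs_four, ← sum_mul]
    rw [sum_comm]
    push_cast
    rw [← mul_assoc, sum_mul]
    refine congrArg (· * _) (sum_congr rfl fun r _ => ?_)
    rw [← mul_sum, ind_and, Complex.ofReal_mul, mul_assoc]
    refine congrArg (_ * ·) (Eq.trans ?_ (AddChar.sum_apply_eq_ite (U.mkQ (ex (2 ^ j) t r))).symm)
    simp only [ind_eq_ite, Submodule.mkQ_apply, Submodule.Quotient.mk_eq_zero, hk]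
    split_ifs <;> simp
  have t6 := (Real.le_norm_self _).trans ((Complex.norm_real _).symm.trans_le (congrArg norm t5).le)
  rw [norm_mul, norm_pow, Complex.norm_ofNat] at t6
  have t7 := t6.trans (mul_le_mul_of_nonneg_left (((norm_sum_le _ _).trans
    (sum_le_sum fun ψ _ => norm_sum_le _ _)).trans t4) (by positivity))
  have c1 : (Fintype.card (Row J) : ℝ) = 4 ^ Fintype.card J := by
    simp [← mul_pow]
  rw [prU, pr, c1, div_le_iff₀ (by positivity)]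
  refine le_of_mul_le_mul_right (t7.trans (le_of_eq ?_)) (by positivity)
  field_simp
  ring

end Vale.Agent.P160
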