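import Vale.Agent.P160.Basic

/-! The rank process. -/

open Finset

namespace Vale.Agent.P160

/-- The supersolution. -/
noncomputable def rankPhi (z : ℝ) (k : ℕ) : ℝ :=
  ∏ i ∈ range k, (1 + z / (2 / 3) ^ i) / (1 - (2 / 3) ^ (i + 1))

theorem rank_den (i : ℕ) : (0 : ℝ) < 1 - (2 / 3) ^ (i + 1) :=
  sub_pos.2 (pow_lt_one₀ (by norm_num) (by norm_num) i.succ_ne_zero)

theorem rankPhi_nonneg {z : ℝ} (hz : 0 ≤ z) (k : ℕ) : 0 ≤ rankPhi z k :=
  prod_nonneg fun i _ => div_nonneg (by positivity) (rank_den i).le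

theorem rankPhi_ge {z : ℝ} (hz : 0 ≤ z) (k : ℕ) : z ^ k ≤ rankPhi z k := by
  rw [← card_range k, ← prod_const, card_range]
  refine prod_le_prod (fun _ _ => hz) fun i _ => (le_div_iff₀ (rank_den i)).2 ?_
  have h1 : z ≤ z / (2 / 3) ^ i :=
    le_div_self hz (by positivity) (pow_le_one₀ (by norm_num) (by norm_num))
  have h2 : 0 ≤ z * (2 / 3) ^ (i + 1) := by positivity
  linarith

theorem rankPhi_step (z : ℝ) (k : ℕ) :
    (2 / 3) ^ (k + 1) * rankPhi z (k + 1) + rankPhi z k = rankPhi (z * (2 / 3)) (k + 1) := by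
  have e : ∀ i : ℕ, z * (2 / 3) / (2 / 3) ^ (i + 1) = z / (2 / 3) ^ i := fun i => by
    rw [pow_succ, mul_div_mul_right _ _ (by norm_num)]
  have h1 := (rank_den k).ne'
  have h2 := (prod_pos fun i (_ : i ∈ range k) => rank_den i).ne'
  have h3 : ((2 / 3 : ℝ) ^ k) ≠ 0 := by positivity
  simp only [rankPhi, prod_div_distrib]
  rw [prod_range_succ' fun i => 1 + z * (2 / 3) / (2 / 3) ^ i, prod_range_succ, prod_range_succ]
  simp only [e, pow_zero, div_one]
  generalize ∏ i ∈ range k, (1 + z / (2 / 3) ^ i) = N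
  generalize ∏ i ∈ range k, (1 - (2 / 3 : ℝ) ^ (i + 1)) = D at h2 ⊢
  rw [pow_succ] at h1 ⊢
  generalize (2 / 3 : ℝ) ^ k = t at h1 h3 ⊢
  generalize (2 / 3 : ℝ) = a at h1 ⊢
  field_simp
  ring

theorem rankPhi_le {y : ℝ} (h0 : 0 ≤ y) (hy : y ≤ 1 / 2) (d : ℕ) :
    rankPhi (y * (2 / 3) ^ d) d ≤ 1000 := by
  have e : rankPhi (y * (2 / 3) ^ d) d =
      ∏ i ∈ range d, (1 + y * (2 / 3) ^ (i + 1)) / (1 - (2 / 3) ^ (i + 1)) := by
    simp only [rankPhi, prod_div_distrib]
    rw [← prod_range_reflect]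
    refine congrArg (· / _) (prod_congr rfl fun i hi => ?_)
    have : d = i + 1 + (d - 1 - i) := by have := mem_range.1 hi; omega
    nth_rw 1 [this]
    rw [pow_add, ← mul_assoc, mul_div_cancel_right₀ _ (by positivity)]
  have h1 : ∀ i, (1 + y * (2 / 3) ^ (i + 1)) / (1 - (2 / 3) ^ (i + 1)) ≤
      Real.exp (2 * (2 / 3) ^ i) := fun i => by
    have h2 : (0 : ℝ) ≤ (2 / 3) ^ i := by positivity
    have h3 : (2 / 3 : ℝ) ^ i ≤ 1 := pow_le_one₀ (by norm_num) (by norm_num)
    refine le_trans ?_ (Real.quadratic_le_exp_of_nonneg (by positivity))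
    rw [div_le_iff₀ (rank_den i), pow_succ]
    generalize (2 / 3 : ℝ) ^ i = t at h2 h3
    nlinarith [mul_nonneg h2 (sub_nonneg.2 hy), mul_nonneg h2 (sub_nonneg.2 h3),
      mul_nonneg (mul_nonneg h2 h2) (sub_nonneg.2 h3)]
  rw [e]
  refine (prod_le_prod (fun i _ => div_nonneg (by positivity) (rank_den i).le)
    fun i _ => h1 i).trans ?_
  rw [← Real.exp_sum, ← mul_sum]
  have h4 : ∑ i ∈ range d, (2 / 3 : ℝ) ^ i ≤ 3 := by
    have := (summable_geometric_of_lt_one (r := 2 / 3) (by norm_num) (by norm_num)).sum_le_tsum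
      (range d) fun _ _ => by positivity
    rw [tsum_geometric_of_lt_one (by norm_num) (by norm_num)] at this
    linarith
  refine (Real.exp_le_exp.2 (show _ ≤ ((6 : ℕ) : ℝ) * 1 by push_cast; linarith)).trans ?_
  rw [Real.exp_nat_mul]
  exact (pow_le_pow_left₀ (Real.exp_pos 1).le Real.exp_one_lt_three.le 6).trans (by norm_num)

theorem rank_aux {R V : Type} [Fintype R] [Nonempty R]
    [AddCommGroup V] [Module (ZMod 2) V] [FiniteDimensional (ZMod 2) V] (ok : R → Prop) (e : R → V)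
    (V₀ : Submodule (ZMod 2) V) (hok : ∀ r, ok r → e r ∈ V₀) {b x : ℝ} (hb : 0 ≤ b) (hx : 0 ≤ x)
    (h : ∀ U ≤ V₀, pr (fun r => ok r ∧ e r ∈ U) ≤
      b * (2 / 3) ^ (Module.finrank (ZMod 2) V₀ - Module.finrank (ZMod 2) U)) (m : ℕ) :
    ∀ U ≤ V₀, ∑ Y : Fin m → R, ind (∀ i, ok (Y i)) * x ^ (Module.finrank (ZMod 2) V₀ -
      Module.finrank (ZMod 2) ↥(U ⊔ Submodule.span (ZMod 2) (Set.range fun i => e (Y i)))) ≤
      (Fintype.card R * b) ^ m * rankPhi (x * (2 / 3) ^ m)
        (Module.finrank (ZMod 2) V₀ - Module.finrank (ZMod 2) U) := by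
  have c0 : (0 : ℝ) < Fintype.card R := Nat.cast_pos.2 Fintype.card_pos
  have h' : ∀ U ≤ V₀, ∑ r, ind (ok r ∧ e r ∈ U) ≤ Fintype.card R * b *
      (2 / 3) ^ (Module.finrank (ZMod 2) V₀ - Module.finrank (ZMod 2) U) := fun U hU => by
    rw [mul_assoc, ← div_le_iff₀' c0]
    exact h U hU
  induction m with
  | zero =>
    intro U _
    rw [Fintype.sum_unique, Set.range_eq_empty, Submodule.span_empty, sup_bot_eq,
      ind_pos fun i => i.elim0, one_mul, pow_zero, pow_zero, one_mul, mul_one]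
    exact rankPhi_ge hx _
  | succ m ih =>
    intro U hU
    have p0 := fun k => rankPhi_nonneg (z := x * (2 / 3) ^ m) (by positivity) k
    have p1 : 0 ≤ (Fintype.card R * b) ^ m := by positivity
    rw [← (Fin.consEquiv fun _ => R).sum_comp, Fintype.sum_prod_type]
    have e1 : ∀ r, ∑ Y : Fin m → R, ind (∀ i, ok ((Fin.consEquiv fun _ => R) (r, Y) i)) *
        x ^ (Module.finrank (ZMod 2) V₀ - Module.finrank (ZMod 2) ↥(U ⊔ Submodule.span (ZMod 2)
          (Set.range fun i => e ((Fin.consEquiv fun _ => R) (r, Y) i)))) ≤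
        ind (ok r) * ((Fintype.card R * b) ^ m * rankPhi (x * (2 / 3) ^ m)
          (Module.finrank (ZMod 2) V₀ -
            Module.finrank (ZMod 2) ↥(U ⊔ Submodule.span (ZMod 2) {e r}))) := fun r => by
      by_cases hr : ok r
      · rw [ind_pos hr, one_mul]
        refine le_trans (le_of_eq (sum_congr rfl fun Y _ => ?_))
          (ih _ (sup_le hU ((Submodule.span_singleton_le_iff_mem _ _).2 (hok r hr))))
        rw [Fin.range_fin_succ, Submodule.span_insert, ← sup_assoc, Fin.forall_fin_succ,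
          ind_congr (and_iff_right (show ok ((Fin.consEquiv fun _ => R) (r, Y) 0) from hr))]
        rfl
      · rw [ind_neg hr, zero_mul]
        exact (sum_eq_zero fun Y _ => by rw [ind_neg fun h => hr (h 0), zero_mul]).le
    refine (sum_le_sum fun r _ => e1 r).trans ?_
    have e2 : ∀ r, e r ∈ U → U ⊔ Submodule.span (ZMod 2) {e r} = U := fun r hr =>
      sup_eq_left.2 ((Submodule.span_singleton_le_iff_mem _ _).2 hr)
    have k1 := h' U hU
    rcases hk : Module.finrank (ZMod 2) V₀ - Module.finrank (ZMod 2) U with _ | k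
    · have e3 : U = V₀ := Submodule.eq_of_le_of_finrank_le hU (Nat.sub_eq_zero_iff_le.1 hk)
      rw [hk, pow_zero, mul_one] at k1
      refine (sum_le_sum (g := fun r => ind (ok r ∧ e r ∈ U) * (Fintype.card R * b) ^ m)
        fun r _ => ?_).trans ?_
      · by_cases hr : ok r
        · have := e3 ▸ hok r hr
          rw [e2 r this, hk, ind_pos hr, ind_pos ⟨hr, this⟩, rankPhi, prod_range_zero, mul_one]
        · rw [ind_neg hr, ind_neg fun h => hr h.1, zero_mul, zero_mul]
      · rw [← sum_mul, rankPhi, prod_range_zero, mul_one, pow_succ']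
        exact mul_le_mul_of_nonneg_right k1 p1
    · have k2 := h' V₀ le_rfl
      rw [Nat.sub_self, pow_zero, mul_one] at k2
      rw [hk] at k1
      refine (sum_le_sum (g := fun r => (Fintype.card R * b) ^ m * (ind (ok r ∧ e r ∈ U) *
        rankPhi (x * (2 / 3) ^ m) (k + 1) + ind (ok r ∧ e r ∈ V₀) * rankPhi (x * (2 / 3) ^ m) k))
        fun r _ => ?_).trans ?_
      · rw [mul_left_comm]
        refine mul_le_mul_of_nonneg_left ?_ p1
        by_cases hr : ok r
        · by_cases hu : e r ∈ U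
          · rw [e2 r hu, hk, ind_pos hr, ind_pos ⟨hr, hu⟩]
            exact le_add_of_nonneg_right (mul_nonneg (ind_nonneg _) (p0 _))
          · rw [Submodule.finrank_sup_span_singleton hu, ← Nat.sub_sub, hk, Nat.add_sub_cancel,
              ind_pos hr, ind_pos (And.intro hr (hok r hr))]
            exact le_add_of_nonneg_left (mul_nonneg (ind_nonneg _) (p0 _))
        · rw [ind_neg hr, zero_mul]
          exact add_nonneg (mul_nonneg (ind_nonneg _) (p0 _)) (mul_nonneg (ind_nonneg _) (p0 _))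
      · rw [← mul_sum, sum_add_distrib, ← sum_mul, ← sum_mul, pow_succ, pow_succ _ m, mul_assoc,
          ← mul_assoc x, ← rankPhi_step, mul_add (_ * b), ← mul_assoc (_ * b)]
        exact mul_le_mul_of_nonneg_left (add_le_add (mul_le_mul_of_nonneg_right k1 (p0 _))
          (mul_le_mul_of_nonneg_right k2 (p0 _))) p1

theorem rank_bound {R V A : Type} [Fintype R] [Nonempty R] [Fintype A] [DecidableEq A]
    [AddCommGroup V] [Module (ZMod 2) V] [FiniteDimensional (ZMod 2) V] (ok : R → Prop) (e : R → V)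
    (V₀ : Submodule (ZMod 2) V) (hok : ∀ r, ok r → e r ∈ V₀) {b x : ℝ} (hb : 0 ≤ b) (hx : 1 ≤ x)
    (h : ∀ U ≤ V₀, pr (fun r => ok r ∧ e r ∈ U) ≤
      b * (2 / 3) ^ (Module.finrank (ZMod 2) V₀ - Module.finrank (ZMod 2) U))
    (hA : Module.finrank (ZMod 2) V₀ ≤ Fintype.card A)
    (hx' : x * (2 / 3) ^ (Fintype.card A - Module.finrank (ZMod 2) V₀) ≤ 1 / 2) :
    (∑ Y : A → R, ind (∀ i, ok (Y i)) * x ^ (Module.finrank (ZMod 2) V₀ -
      Module.finrank (ZMod 2) (Submodule.span (ZMod 2) (Set.range fun i => e (Y i))))) /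
      Fintype.card (A → R) ≤ 1000 * b ^ Fintype.card A := by
  have x0 := zero_le_one.trans hx
  have c0 : (0 : ℝ) < Fintype.card R := Nat.cast_pos.2 Fintype.card_pos
  have h1 := rank_aux ok e V₀ hok hb x0 h (Fintype.card A) ⊥ bot_le
  have h2 := rankPhi_le (by positivity) hx' (Module.finrank (ZMod 2) V₀)
  rw [mul_assoc, ← pow_add, Nat.sub_add_cancel hA] at h2
  simp only [finrank_bot, Nat.sub_zero] at h1
  let g := Fintype.equivFin A
  rw [← (g.symm.arrowCongr (Equiv.refl R)).sum_comp, Fintype.card_fun, Nat.cast_pow,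
    div_le_iff₀ (by positivity), mul_assoc, ← mul_pow, mul_comm b, mul_comm 1000]
  refine le_trans (le_of_eq (sum_congr rfl fun Y _ => ?_))
    (h1.trans (mul_le_mul_of_nonneg_left h2 (by positivity)))
  rw [bot_sup_eq, ← g.surjective.range_comp fun i => e (Y i),
    ind_congr (g.surjective.forall (p := fun i => ok (Y i)))]
  rfl

end Vale.Agent.P160
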