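import Vale.Agent.P160.Ker
import Vale.Agent.P160.Rank
import Vale.Agent.P160.NCs

/-! The sum over the free coordinates. -/

open Finset

namespace Vale.Agent.P160

theorem cut_sum {A A' J : Type} [Fintype A] [DecidableEq A] [Fintype A'] [DecidableEq A']
    [Fintype J] [DecidableEq J] {j : ℕ} (hj : 1 ≤ j) (t : J → ℤ) (ht : ∃ b, Odd (t b)) {β : ℝ}
    (hβ : 0 ≤ β) (hNC : NC (2 ^ j) β t) (u' : A' → ℤ) (hA : Fintype.card J ≤ Fintype.card A)
    (hq : (2 : ℝ) ^ j * (2 / 3) ^ (Fintype.card A - Fintype.card J) ≤ 1 / 2) :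
    ∑ u : A → ZMod (2 ^ j), cutP (2 ^ j) t (Sum.elim (fun i => ((u i).val : ℤ)) u') ≤
      2000 * β ^ (Fintype.card A + Fintype.card A') /
        (2 ^ j) ^ (Fintype.card J + Fintype.card A') := by
  have hd := finrank_V0 ht
  have hq0 : (0 : ℝ) < 2 ^ j := by positivity
  let rk : (A → Row J) → ℕ := fun Y => Module.finrank (ZMod 2)
    (Submodule.span (ZMod 2) (Set.range fun i => ex (2 ^ j) t (Y i)))
  let ok : Row J → Prop := fun r => ((2 ^ j : ℕ) : ℤ) ∣ rd t r
  have hb : 0 ≤ β / 2 ^ j := by positivity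
  have hrank := rank_bound (A := A) ok (ex (2 ^ j) t) (V0 t) (fun r h => ex_mem_V0 hj h) hb
    (x := 2 ^ j) (one_le_pow₀ one_le_two)
    (fun U hU => by simpa only [hd, prU, Nat.cast_pow, Nat.cast_ofNat, ok] using hNC U hU)
    (hd ▸ hA) (hd ▸ hq)
  rw [hd] at hrank
  have hok : pr ok ≤ β / 2 ^ j := by
    have := hNC (V0 t) le_rfl
    rw [hd, Nat.sub_self, pow_zero, mul_one, Nat.cast_pow, Nat.cast_ofNat] at this
    exact le_trans (pr_mono fun r h => ⟨h, ex_mem_V0 hj h⟩) this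
  have hok' : pr (fun Y : A' → Row J => ∀ i, ok (Y i)) ≤ (β / 2 ^ j) ^ Fintype.card A' := by
    rw [pr_pi fun _ => ok, Finset.prod_const, card_univ]
    exact pow_le_pow_left₀ (pr_nonneg _) hok _
  have key : ∀ (Y : A → Row J) (Y' : A' → Row J), ∑ u : A → ZMod (2 ^ j),
      ind ((∀ i, ok (Sum.elim Y Y' i)) ∧ (∀ b, ((2 ^ j : ℕ) : ℤ) ∣
        ∑ i, rv (Sum.elim Y Y' i) b * Sum.elim (fun i => ((u i).val : ℤ)) u' i) ∧
        ((2 ^ j : ℕ) : ℤ) ^ 2 ∣
          2 * ∑ i, rd t (Sum.elim Y Y' i) * Sum.elim (fun i => ((u i).val : ℤ)) u' i) ≤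
      2 * (2 ^ j) ^ (Fintype.card A - Fintype.card J) *
        ((ind (∀ i, ok (Y i)) * (2 ^ j) ^ (Fintype.card J - rk Y)) * ind (∀ i, ok (Y' i))) := by
    intro Y Y'
    by_cases h : ∀ i, ok (Sum.elim Y Y' i)
    · have h1 : ∀ i, ok (Y i) := fun i => h (.inl i)
      have h2 : ∀ i, ok (Y' i) := fun i => h (.inr i)
      have hrk : rk Y ≤ Fintype.card J := by
        rw [← hd]
        exact Submodule.finrank_mono (Submodule.span_le.2 (by
          rintro _ ⟨i, rfl⟩; exact ex_mem_V0 hj (h1 i)))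
      rw [ind_pos h1, ind_pos h2, one_mul, mul_one, mul_assoc, ← pow_add,
        show Fintype.card A - Fintype.card J + (Fintype.card J - rk Y) =
          Fintype.card A - rk Y by omega]
      refine le_trans (Finset.sum_le_sum fun u _ => ind_mono fun hu => ?_)
        (ker_count j (fun i b => rv (Y i) b) (fun i => rd t (Y i) / (2 ^ j : ℕ))
          (fun b => ∑ i, rv (Y' i) b * u' i) (∑ i, rd t (Y' i) / (2 ^ j : ℕ) * u' i))
      obtain ⟨-, h3, h4⟩ := hu
      simp only [Fintype.sum_sum_type, Sum.elim_inl, Sum.elim_inr] at h3 h4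
      refine ⟨fun b => by simpa only [Nat.cast_pow, Nat.cast_ofNat] using h3 b, ?_⟩
      have e : 2 * (∑ i, rd t (Y i) * ((u i).val : ℤ) + ∑ i, rd t (Y' i) * u' i) =
          ((2 ^ j : ℕ) : ℤ) * (2 * (∑ i, rd t (Y i) / (2 ^ j : ℕ) * ((u i).val : ℤ) +
            ∑ i, rd t (Y' i) / (2 ^ j : ℕ) * u' i)) := by
        rw [mul_left_comm, mul_add ((2 ^ j : ℕ) : ℤ), Finset.mul_sum, Finset.mul_sum]
        simp only [← mul_assoc, Int.mul_ediv_cancel' (h1 _), Int.mul_ediv_cancel' (h2 _)]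
      rw [e, sq] at h4
      simpa only [Nat.cast_pow, Nat.cast_ofNat] using
        (mul_dvd_mul_iff_left (by positivity)).1 h4
    · rw [Finset.sum_eq_zero fun u _ => ind_neg fun hu => h hu.1]
      have := ind_nonneg (∀ i, ok (Y i))
      have := ind_nonneg (∀ i, ok (Y' i))
      positivity
  have e1 : ∑ u : A → ZMod (2 ^ j), cutP (2 ^ j) t (Sum.elim (fun i => ((u i).val : ℤ)) u') ≤
      2 * (2 ^ j) ^ (Fintype.card A - Fintype.card J) *
        ((∑ Y : A → Row J, ind (∀ i, ok (Y i)) * (2 ^ j) ^ (Fintype.card J - rk Y)) /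
          Fintype.card (A → Row J) * pr fun Y : A' → Row J => ∀ i, ok (Y i)) := by
    unfold cutP
    rw [sum_pr, ← Equiv.sum_comp (Equiv.sumArrowEquivProdArrow A A' (Row J)).symm,
      Fintype.sum_prod_type, Fintype.card_congr (Equiv.sumArrowEquivProdArrow A A' (Row J)),
      Fintype.card_prod, Nat.cast_mul, pr, div_mul_div_comm, ← mul_div_assoc, Finset.sum_mul_sum,
      Finset.mul_sum]
    refine div_le_div_of_nonneg_right (Finset.sum_le_sum fun Y _ => ?_) (by positivity)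
    rw [Finset.mul_sum]
    exact Finset.sum_le_sum fun Y' _ => key Y Y'
  refine e1.trans ((mul_le_mul_of_nonneg_left (mul_le_mul hrank hok' (pr_nonneg _)
    (by positivity)) (by positivity)).trans (le_of_eq ?_))
  rw [pow_sub₀ _ hq0.ne' hA, pow_add, pow_add, div_pow, div_pow]
  field_simp
  ring

end Vale.Agent.P160
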