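import Vale.Agent.P160.Cut

/-! The sum over all coordinates. -/

open Finset

namespace Vale.Agent.P160

theorem cutT_equiv {A A' J : Type} [Fintype A] [DecidableEq A] [Fintype A'] [DecidableEq A']
    [Fintype J] [DecidableEq J] (e : A ≃ A') (q : ℕ) (t : J → ℤ) (u : A' → ℤ) :
    cutP q t (fun i => u (e i)) = cutP q t u := by
  unfold cutP
  rw [← pr_equiv (Equiv.arrowCongr e.symm (Equiv.refl (Row J)))]
  refine pr_congr fun Y => ?_
  simp only [Equiv.arrowCongr_apply, Equiv.coe_refl, Equiv.symm_symm, Function.comp, id]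
  rw [Equiv.sum_comp e fun i => rd t (Y i) * u i]
  refine and_congr (e.forall_congr_right (q := fun i => (q : ℤ) ∣ rd t (Y i)))
    (and_congr (forall_congr' fun b => ?_) Iff.rfl)
  rw [Equiv.sum_comp e fun i => rv (Y i) b * u i]

theorem cutT_ext {ι G : Type} [Fintype ι] [DecidableEq ι] [Fintype G] (S T : Finset ι)
    (h : S ⊆ T) (f : (S → G) → ℝ) : ∑ v : T → G, f (fun k => v ⟨k, h k.2⟩) =
      (Fintype.card G : ℝ) ^ (T.card - S.card) * ∑ x, f x := by
  let e : S ≃ {k : T // k.1 ∈ S} :=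
    { toFun := fun k => ⟨⟨k, h k.2⟩, k.2⟩
      invFun := fun k => ⟨k.1.1, k.2⟩
      left_inv := fun _ => rfl
      right_inv := fun _ => rfl }
  rw [← Equiv.sum_comp (Equiv.piEquivPiSubtypeProd (fun k : T => k.1 ∈ S) fun _ => G).symm,
    Fintype.sum_prod_type, ← Equiv.sum_comp (Equiv.arrowCongr e (Equiv.refl G)), Finset.mul_sum]
  refine Finset.sum_congr rfl fun x _ => ?_
  have : ∀ y : {k : T // k.1 ∉ S} → G, (fun k : S => (Equiv.piEquivPiSubtypeProd
      (fun k : T => k.1 ∈ S) fun _ => G).symm (Equiv.arrowCongr e (Equiv.refl G) x, y)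
      ⟨k, h k.2⟩) = x := fun y => by
    funext k
    rw [Equiv.piEquivPiSubtypeProd_symm_apply, dif_pos k.2]
    rfl
  simp only [this]
  rw [Finset.sum_const, card_univ, Fintype.card_fun, Fintype.card_subtype_compl,
    ← Fintype.card_congr e, Fintype.card_coe, Fintype.card_coe, nsmul_eq_mul, Nat.cast_pow]

theorem cut_total {ι : Type} [Fintype ι] [DecidableEq ι] {j : ℕ} (hj : 1 ≤ j) (J S : Finset ι)
    (B : (S → ZMod (2 ^ j)) → Prop) {β : ℝ} (hβ : 1 ≤ β) (hA : J.card ≤ (J ∪ S)ᶜ.card)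
    (hq : (2 : ℝ) ^ j * (2 / 3) ^ ((J ∪ S)ᶜ.card - J.card) ≤ 1 / 2) :
    ∑ v : ι → ZMod (2 ^ j), ind (B (fun k => v k) ∧ (∃ b ∈ J, Odd (v b).val) ∧
        NC (2 ^ j) β fun b : J => ((v b).val : ℤ)) *
      cutP (2 ^ j) (fun b : J => ((v b).val : ℤ)) (fun i : {i // i ∉ J} => ((v i).val : ℤ)) ≤
      2000 * β ^ Fintype.card ι * (∑ x, ind (B x)) / (2 ^ j) ^ S.card := by
  have hq0 : (0 : ℝ) < 2 ^ j := by positivity
  let A := {i // i ∉ J ∪ S}
  let A' := {i // i ∈ S \ J}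
  let g : A ⊕ A' → {i // i ∉ J} := fun k => match k with
    | .inl i => ⟨i.1, fun h => i.2 (mem_union_left _ h)⟩
    | .inr i => ⟨i.1, (mem_sdiff.1 i.2).2⟩
  have hg : Function.Bijective g := by
    constructor
    · rintro (a | a) (b | b) h <;>
        have h' : a.1 = b.1 := congrArg (fun x : {i // i ∉ J} => x.1) h
      · rw [Subtype.ext h']
      · exact absurd (mem_union_right _ (h' ▸ (mem_sdiff.1 b.2).1)) a.2
      · exact absurd (mem_union_right _ (h' ▸ (mem_sdiff.1 a.2).1)) b.2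
      · rw [Subtype.ext h']
    · rintro ⟨i, hi⟩
      by_cases h : i ∈ S
      · exact ⟨.inr ⟨i, mem_sdiff.2 ⟨h, hi⟩⟩, rfl⟩
      · exact ⟨.inl ⟨i, fun h' => (mem_union.1 h').elim hi h⟩, rfl⟩
  have cA : Fintype.card A = (J ∪ S)ᶜ.card := by
    rw [Fintype.card_subtype_compl, Finset.card_compl, Fintype.card_coe]
  have cA' : J.card + Fintype.card A' = (J ∪ S).card := by
    rw [Fintype.card_coe, add_comm, Finset.card_sdiff_add_card, union_comm]
  have cle : Fintype.card A + Fintype.card A' ≤ Fintype.card ι := by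
    rw [← Fintype.card_sum, Fintype.card_congr (Equiv.ofBijective g hg)]
    exact Fintype.card_subtype_le _
  have hS : S ⊆ J ∪ S := subset_union_right
  have key : ∀ v₁ : {i // i ∈ J ∪ S} → ZMod (2 ^ j), ∑ v₂ : A → ZMod (2 ^ j),
      (fun v : ι → ZMod (2 ^ j) => ind (B (fun k => v k) ∧ (∃ b ∈ J, Odd (v b).val) ∧
        NC (2 ^ j) β fun b : J => ((v b).val : ℤ)) *
      cutP (2 ^ j) (fun b : J => ((v b).val : ℤ)) (fun i : {i // i ∉ J} => ((v i).val : ℤ)))
      ((Equiv.piEquivPiSubtypeProd (fun i => i ∈ J ∪ S) fun _ => ZMod (2 ^ j)).symm (v₁, v₂)) ≤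
      ind (B fun k => v₁ ⟨k, hS k.2⟩) * (2000 * β ^ Fintype.card ι / (2 ^ j) ^ (J ∪ S).card) := by
    intro v₁
    let t : J → ℤ := fun b => ((v₁ ⟨b, mem_union_left _ b.2⟩).val : ℤ)
    let u' : A' → ℤ := fun i => ((v₁ ⟨i, hS (mem_sdiff.1 i.2).1⟩).val : ℤ)
    have e : ∀ v₂ : A → ZMod (2 ^ j),
        (fun v : ι → ZMod (2 ^ j) => ind (B (fun k => v k) ∧ (∃ b ∈ J, Odd (v b).val) ∧
          NC (2 ^ j) β fun b : J => ((v b).val : ℤ)) *
        cutP (2 ^ j) (fun b : J => ((v b).val : ℤ)) (fun i : {i // i ∉ J} => ((v i).val : ℤ)))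
        ((Equiv.piEquivPiSubtypeProd (fun i => i ∈ J ∪ S) fun _ => ZMod (2 ^ j)).symm (v₁, v₂)) ≤
        ind ((B fun k => v₁ ⟨k, hS k.2⟩) ∧ (∃ b, Odd (t b)) ∧ NC (2 ^ j) β t) *
          cutP (2 ^ j) t (Sum.elim (fun i => ((v₂ i).val : ℤ)) u') := fun v₂ => by
      set v := (Equiv.piEquivPiSubtypeProd (fun i => i ∈ J ∪ S) fun _ => ZMod (2 ^ j)).symm
        (v₁, v₂) with hv
      have h1 : ∀ i (h : i ∈ J ∪ S), v i = v₁ ⟨i, h⟩ := fun i h => by
        rw [hv, Equiv.piEquivPiSubtypeProd_symm_apply, dif_pos h]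
      have h2 : ∀ i : A, v i = v₂ i := fun i => by
        rw [hv, Equiv.piEquivPiSubtypeProd_symm_apply, dif_neg i.2]
      have h3 : (fun b : J => ((v b).val : ℤ)) = t := funext fun b => by
        rw [h1 _ (mem_union_left _ b.2)]
      have h4 : (fun k : S => v k) = fun k : S => v₁ ⟨k, hS k.2⟩ := funext fun k => h1 _ _
      have h5 : cutP (2 ^ j) t (fun i : {i // i ∉ J} => ((v i).val : ℤ)) =
          cutP (2 ^ j) t (Sum.elim (fun i => ((v₂ i).val : ℤ)) u') := by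
        rw [← cutT_equiv (Equiv.ofBijective g hg)]
        congr 1
        funext k
        rcases k with i | i
        · exact congrArg (fun x : ZMod (2 ^ j) => (x.val : ℤ)) (h2 i)
        · exact congrArg (fun x : ZMod (2 ^ j) => (x.val : ℤ)) (h1 i _)
      simp only [h3, h4, h5]
      refine mul_le_mul_of_nonneg_right (ind_mono fun ⟨a, ⟨b, hb, hb'⟩, c⟩ => ⟨a, ⟨⟨b, hb⟩, ?_⟩, c⟩)
        (pr_nonneg _)
      rw [← h3]
      exact (Int.odd_coe_nat _).2 hb'
    refine (Finset.sum_le_sum fun v₂ _ => e v₂).trans ?_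
    rw [← Finset.mul_sum, ind_and, mul_assoc]
    refine mul_le_mul_of_nonneg_left (ind_mul_le (by positivity) fun ⟨h1, h2⟩ => ?_) (ind_nonneg _)
    refine (cut_sum hj t h1 (zero_le_one.trans hβ) h2 u' (by rwa [cA, Fintype.card_coe])
      (by rwa [cA, Fintype.card_coe])).trans ?_
    rw [Fintype.card_coe J, cA']
    exact div_le_div_of_nonneg_right (mul_le_mul_of_nonneg_left (pow_le_pow_right₀ hβ cle)
      (by norm_num)) (by positivity)
  rw [← Equiv.sum_comp (Equiv.piEquivPiSubtypeProd (fun i => i ∈ J ∪ S)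
    fun _ => ZMod (2 ^ j)).symm, Fintype.sum_prod_type]
  refine (Finset.sum_le_sum fun v₁ _ => key v₁).trans (le_of_eq ?_)
  rw [← Finset.sum_mul, cutT_ext S (J ∪ S) hS fun x => ind (B x), ZMod.card,
    pow_sub₀ _ (by positivity) (card_le_card hS)]
  push_cast
  field_simp

end Vale.Agent.P160
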