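import Vale.Agent.P160.Basic

/-! Counting colourings. -/

open Finset

namespace Vale.Agent.P160

theorem Fam_one {n : ℕ} (g : Fin 3 → ℝ) (i : Fin n) :
    ∑ c : Fin n → Fin 3, g (c i) = 3 ^ n * ((∑ x, g x) / 3) := by
  have h := Finset.prod_univ_sum (fun _ : Fin n => (univ : Finset (Fin 3)))
    fun k x => if k = i then g x else 1
  have h1 : ∀ k : Fin n, ∑ x : Fin 3, (if k = i then g x else 1) =
      3 * if k = i then (∑ x, g x) / 3 else 1 := fun k => by
    split_ifs
    · ring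
    · simp
  simp only [h1, Finset.prod_mul_distrib, Finset.prod_ite_eq', mem_univ, if_true, prod_const,
    card_univ, Fintype.card_fin, Fintype.piFinset_univ] at h
  exact h.symm

theorem Fam_two {n : ℕ} (g g' : Fin 3 → ℝ) {i j : Fin n} (hij : i ≠ j) :
    ∑ c : Fin n → Fin 3, g (c i) * g' (c j) = 3 ^ n * ((∑ x, g x) / 3 * ((∑ x, g' x) / 3)) := by
  have h := Finset.prod_univ_sum (fun _ : Fin n => (univ : Finset (Fin 3)))
    fun k x => (if k = i then g x else 1) * if k = j then g' x else 1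
  have h1 : ∀ k : Fin n, ∑ x : Fin 3, ((if k = i then g x else 1) * if k = j then g' x else 1) =
      3 * ((if k = i then (∑ x, g x) / 3 else 1) * if k = j then (∑ x, g' x) / 3 else 1) :=
    fun k => by
    split_ifs with h1 h2
    · exact absurd (h1.symm.trans h2) hij
    · simp only [mul_one]; ring
    · simp only [one_mul]; ring
    · simp
  simp only [h1, Finset.prod_mul_distrib, Finset.prod_ite_eq', mem_univ, if_true, prod_const,
    card_univ, Fintype.card_fin, Fintype.piFinset_univ] at h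
  exact h.symm

theorem Fam_cheb {n : ℕ} (T : Finset (Fin n)) {δ : ℝ} (hδ : 0 < δ) :
    pr (fun c : Fin n → Fin 3 => δ ≤ |((T ∩ col0 c).card : ℝ) - T.card / 3|) ≤
      2 * T.card / 9 / δ ^ 2 := by
  let f : Fin 3 → ℝ := fun x => (if x = 0 then 1 else 0) - 1 / 3
  have h1 : ∀ c : Fin n → Fin 3, ((T ∩ col0 c).card : ℝ) - T.card / 3 = ∑ i ∈ T, f (c i) :=
    fun c => by
    simp only [f, Finset.sum_sub_distrib, Finset.sum_boole, sum_const, nsmul_eq_mul]
    rw [col0, ← Finset.filter_mem_eq_inter]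
    simp only [mem_filter, mem_univ, true_and]
    ring
  have h2 : ∑ c : Fin n → Fin 3, (∑ i ∈ T, f (c i)) ^ 2 = 3 ^ n * (2 * T.card / 9) := by
    simp only [sq, Finset.sum_mul_sum]
    rw [Finset.sum_comm]
    have h3 : ∀ i ∈ T, ∑ c : Fin n → Fin 3, ∑ j ∈ T, f (c i) * f (c j) = 3 ^ n * (2 / 9) := by
      intro i hi
      rw [Finset.sum_comm, Finset.sum_eq_single_of_mem i hi fun j _ hj => ?_,
        Fam_one (fun x => f x * f x) i]
      · simp only [f, Fin.sum_univ_three]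
        norm_num [Fin.ext_iff]
      · rw [Fam_two f f hj.symm]
        simp only [f, Fin.sum_univ_three]
        norm_num [Fin.ext_iff]
    rw [Finset.sum_congr rfl h3, sum_const, nsmul_eq_mul]
    ring
  simp only [pr, h1, Fintype.card_pi, Fintype.card_fin, prod_const, card_univ, Nat.cast_pow,
    Nat.cast_ofNat]
  rw [div_le_iff₀ (by positivity), div_mul_eq_mul_div, mul_comm, ← h2, Finset.sum_div]
  refine Finset.sum_le_sum fun c _ => ?_
  have h4 := ind_mul_le (p := δ ≤ |∑ i ∈ T, f (c i)|) (a := 1)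
    (b := (∑ i ∈ T, f (c i)) ^ 2 / δ ^ 2) (by positivity) fun h => by
      rw [one_le_div (by positivity), ← sq_abs (∑ i ∈ T, f (c i))]
      exact pow_le_pow_left₀ hδ.le h 2
  rwa [mul_one] at h4

theorem pr_bal {n : ℕ} (hn : 10000000 ≤ n) (O S : Finset (Fin n)) (hO : n ≤ 10 * O.card)
    (hS : S = ∅ ∨ n ≤ 10 * S.card) : 19 / 20 ≤ pr fun c : Fin n → Fin 3 => Bal O S c := by
  have hn' : (10000000 : ℝ) ≤ n := by exact_mod_cast hn
  have hO' : (n : ℝ) ≤ 10 * O.card := by exact_mod_cast hO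
  have key : ∀ (T : Finset (Fin n)) (a : ℝ), 1000000 ≤ (T.card : ℝ) → 1 ≤ a → a ^ 2 ≤ 1000 ∨
      (a ^ 2 ≤ 100000 ∧ 10000000 ≤ (T.card : ℝ)) →
      pr (fun c : Fin n → Fin 3 => T.card / a ≤ |((T ∩ col0 c).card : ℝ) - T.card / 3|) ≤
        1 / 60 := fun T a h1 h2 h3 => by
    refine (Fam_cheb T (by positivity)).trans ?_
    rw [div_pow, div_div_eq_mul_div, div_le_iff₀ (by positivity)]
    rcases h3 with h3 | ⟨h3, h4⟩ <;> nlinarith
  have h1 := key univ 300 (by rw [card_univ, Fintype.card_fin]; linarith) (by norm_num)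
    (.inr ⟨by norm_num, by rwa [card_univ, Fintype.card_fin]⟩)
  have h2 := key O 12 (by linarith) (by norm_num) (.inl (by norm_num))
  have h3 : pr (fun c : Fin n → Fin 3 => ¬3 * S.card ≤ 10 * (S ∩ col0 c).card) ≤ 1 / 60 := by
    rcases hS with rfl | hS
    · rw [pr_of_not (by simp)]; norm_num
    · have hS' : (n : ℝ) ≤ 10 * S.card := by exact_mod_cast hS
      refine (pr_mono fun c h => ?_).trans (key S 30 (by linarith) (by norm_num) (.inl (by norm_num)))
      have h' : (10 : ℝ) * (S ∩ col0 c).card < 3 * S.card := by exact_mod_cast not_le.1 h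
      exact le_abs.2 (.inr (by linarith))
  have h4 : pr (fun _ : Fin n → Fin 3 => True) = 1 := by
    simp [pr, ind_pos trivial]
  simp only [card_univ, Fintype.card_fin, univ_inter] at h1
  have h5 := (pr_mono (p := fun _ : Fin n → Fin 3 => True) fun c _ => ?_).trans
    ((pr_or (fun c => Bal O S c) _).trans (add_le_add le_rfl ((pr_or _ _).trans
      (add_le_add h1 ((pr_or _ _).trans (add_le_add h2 h3))))))
  · linarith
  · by_contra h
    simp only [not_or, not_le, abs_lt] at h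
    refine h.1 ⟨?_, ?_, ?_, by simpa using h.2.2.2⟩
    · exact_mod_cast (by linarith [h.2.1.1] : (326 : ℝ) * n ≤ 1000 * (col0 c).card)
    · exact_mod_cast (by linarith [h.2.1.2] : (1000 : ℝ) * (col0 c).card ≤ 337 * n)
    · exact_mod_cast (by linarith [h.2.2.1.1] : (O.card : ℝ) ≤ 4 * (O ∩ col0 c).card)

theorem pr_cut {n : ℕ} {i j : Fin n} (h : i ≠ j) :
    pr (fun c : Fin n → Fin 3 => (c i = 0 ∧ c j ≠ 0) ∨ (c i ≠ 0 ∧ c j = 0)) = 4 / 9 := by
  let f : Fin 3 → ℝ := fun x => if x = 0 then 1 else 0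
  have h1 : ∀ c : Fin n → Fin 3, ind ((c i = 0 ∧ c j ≠ 0) ∨ (c i ≠ 0 ∧ c j = 0)) =
      f (c i) * (1 - f (c j)) + (1 - f (c i)) * f (c j) := fun c => by
    by_cases h1 : c i = 0 <;> by_cases h2 : c j = 0 <;> simp [ind, f, h1, h2]
  simp only [pr, h1, Finset.sum_add_distrib, Fintype.card_pi, Fintype.card_fin, prod_const,
    card_univ, Nat.cast_pow, Nat.cast_ofNat]
  rw [Fam_two f (fun x => 1 - f x) h, Fam_two (fun x => 1 - f x) f h, div_eq_iff (by positivity)]
  simp only [f, Fin.sum_univ_three]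
  norm_num [Fin.ext_iff]
  ring

open Classical in
/-- The family of patterns. -/
noncomputable def fam {n : ℕ} (O S : Finset (Fin n)) : Finset ((Fin n → Fin 3) × Fin n) :=
  univ.filter fun P => Bal O S P.1 ∧ P.2 ∈ O

theorem Fam_count {n : ℕ} (p : (Fin n → Fin 3) → Prop) [DecidablePred p] :
    ((univ.filter p).card : ℝ) = pr p * 3 ^ n := by
  simp only [pr, sum_ind, Fintype.card_pi, Fintype.card_fin, prod_const, card_univ, Nat.cast_pow,
    Nat.cast_ofNat]
  rw [div_mul_cancel₀ _ (by positivity)]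

theorem fam_card {n : ℕ} (hn : 10000000 ≤ n) (O S : Finset (Fin n)) (hO : n ≤ 10 * O.card)
    (hS : S = ∅ ∨ n ≤ 10 * S.card) : 19 / 20 * 3 ^ n * (O.card : ℝ) ≤ (fam O S).card := by
  classical
  have h : fam O S = (univ.filter fun c => Bal O S c) ×ˢ O := by
    ext P
    simp [fam]
  rw [h, card_product, Nat.cast_mul, Fam_count]
  gcongr
  exact pr_bal hn O S hO hS

open Classical in
theorem fam_freq {n : ℕ} (hn : 10000000 ≤ n) (O S : Finset (Fin n)) (hO : n ≤ 10 * O.card)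
    (hS : S = ∅ ∨ n ≤ 10 * S.card) (e : Sym2 (Fin n)) :
    2 * ((fam O S).filter fun P => e ∈ patt ((col0 P.1).erase P.2) P.2).card ≤ (fam O S).card := by
  induction e using Sym2.ind with
  | h a b =>
  by_cases hab : a = b
  · subst hab
    rw [Finset.filter_false_of_mem, card_empty]
    · exact Nat.zero_le _
    · intro P _ h
      simp only [patt, mem_filter, mem_univ, true_and, Sym2.eq_iff] at h
      rcases h with ⟨i, hi, b, hb, ⟨h1, h2⟩ | ⟨h2, h1⟩⟩ | ⟨i, -, hi, ⟨h1, h2⟩ | ⟨h2, h1⟩⟩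
      · exact hi (h1 ▸ h2 ▸ hb)
      · exact hi (h1 ▸ h2 ▸ hb)
      · exact hi (h2.symm.trans h1)
      · exact hi (h2.symm.trans h1)
  have hsub : ((fam O S).filter fun P => s(a, b) ∈ patt ((col0 P.1).erase P.2) P.2) ⊆
      (univ.filter fun c : Fin n → Fin 3 => (c a = 0 ∧ c b ≠ 0) ∨ (c a ≠ 0 ∧ c b = 0)) ×ˢ O ∪
        univ ×ˢ {a, b} := by
    intro P hP
    simp only [fam, patt, col0, mem_filter, mem_univ, true_and, Sym2.eq_iff, mem_erase, mem_union,
      mem_product, mem_insert, mem_singleton, not_and] at hP ⊢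
    obtain ⟨⟨-, hO⟩, ⟨i, hi, j, hj, h⟩ | ⟨i, -, -, h⟩⟩ := hP
    · by_cases h0 : i = P.2
      · rcases h with ⟨rfl, rfl⟩ | ⟨rfl, rfl⟩
        · exact .inr (.inl h0.symm)
        · exact .inr (.inr h0.symm)
      · rcases h with ⟨rfl, rfl⟩ | ⟨rfl, rfl⟩
        · exact .inl ⟨.inr ⟨hi h0, hj.2⟩, hO⟩
        · exact .inl ⟨.inl ⟨hj.2, hi h0⟩, hO⟩
    · rcases h with ⟨h, -⟩ | ⟨-, h⟩
      · exact .inr (.inl h.symm)
      · exact .inr (.inr h.symm)
  have h1 := (card_le_card hsub).trans (card_union_le _ _)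
  rw [card_product, card_product, card_pair hab, card_univ, ← Nat.cast_le (α := ℝ)] at h1
  simp only [Nat.cast_add, Nat.cast_mul, Fam_count, pr_cut hab, Fintype.card_pi, Fintype.card_fin,
    prod_const, card_univ, Nat.cast_pow, Nat.cast_ofNat] at h1
  have h2 := fam_card hn O S hO hS
  have hn' : (10000000 : ℝ) ≤ n := by exact_mod_cast hn
  have hO' : (n : ℝ) ≤ 10 * O.card := by exact_mod_cast hO
  have h3 : (0 : ℝ) < 3 ^ n := by positivity
  rw [← Nat.cast_le (α := ℝ), Nat.cast_mul, Nat.cast_ofNat]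
  nlinarith

end Vale.Agent.P160
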