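import Vale.Agent.P160.Cases
import Vale.Agent.P160.Bad

/-! Choice of the constants. -/

open Finset

namespace Vale.Agent.P160

theorem final_ev (C : ℝ) {y ε : ℝ} (h0 : 0 ≤ y) (h1 : y < 1) (hε : 0 < ε) :
    ∀ᶠ n : ℕ in Filter.atTop, C * y ^ n ≤ ε := by
  have h := (tendsto_pow_atTop_nhds_zero_of_lt_one h0 h1).const_mul C
  rw [mul_zero] at h
  exact h.eventually_le_const hε

theorem final_ev' (C : ℝ) {y ε : ℝ} (h0 : 0 ≤ y) (h1 : y < 1) (hε : 0 < ε) :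
    ∀ᶠ n : ℕ in Filter.atTop, C * (n * y ^ n) ≤ ε := by
  have h := (tendsto_self_mul_const_pow_of_lt_one h0 h1).const_mul C
  rw [mul_zero] at h
  exact h.eventually_le_const hε

/-- growth against decay, compared after raising to the power N -/
theorem final_cmp {C a b ε : ℝ} (hC : 0 ≤ C) (ha : 1 ≤ a) (hb0 : 0 ≤ b) (hb : b ≤ 1) (hε : 0 < ε)
    {N p q : ℕ} (hN : N ≠ 0) (h : a ^ p * b ^ q < 1) : ∀ᶠ n : ℕ in Filter.atTop, ∀ s d : ℕ,
      N * s ≤ p * n + N → q * n ≤ N * d → C * a ^ s * b ^ d ≤ ε := by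
  have a0 : 0 ≤ a := zero_le_one.trans ha
  filter_upwards [final_ev ((C * a) ^ N) (by positivity) h (pow_pos hε N)] with n hn s d h1 h2
  refine le_of_pow_le_pow_left₀ hN hε.le (le_trans ?_ hn)
  rw [mul_pow, mul_pow, mul_pow, mul_pow, ← pow_mul, ← pow_mul, ← pow_mul, ← pow_mul, mul_assoc,
    mul_assoc, ← mul_assoc (a ^ N), ← pow_add]
  exact mul_le_mul_of_nonneg_left (mul_le_mul (pow_le_pow_right₀ ha (by linarith))
    (pow_le_pow_of_le_one hb0 hb (by linarith)) (by positivity) (by positivity)) (by positivity)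

theorem final_num {K : ℝ} (hK : 4 ≤ K) {c : ℕ} (hc : 2 ≤ c) : ∃ (η : ℝ) (K₀ r : ℕ),
    (1 - 1 / (8 * 4 ^ c)) ^ r * K ≤ η ∧
    ∀ᶠ n in Filter.atTop, Num n K η (1 + 1 / 10000) c K₀ (33 * n / 250)
      (33 * n / 250 + 1 + n / 2000 + n / 2000) := by
  obtain ⟨K₀, h0⟩ := pow_unbounded_of_one_lt (4 * K) (by norm_num : (1 : ℝ) < 4 / 3)
  obtain ⟨η, η0, η1, η2⟩ : ∃ η : ℝ, 0 < η ∧ η ≤ (2 / 3) ^ K₀ / 8 ∧ η ≤ 1 / 20000 :=
    ⟨min _ _, by positivity, min_le_left _ _, min_le_right _ _⟩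
  have c1 : (1 : ℝ) ≤ 4 ^ c := one_le_pow₀ (by norm_num)
  obtain ⟨r, hr⟩ := (final_ev K (y := 1 - 1 / (8 * 4 ^ c))
    (sub_nonneg.2 ((div_le_one (by positivity)).2 (by linarith)))
    (sub_lt_self _ (by positivity)) η0).exists
  refine ⟨η, K₀, r, (mul_comm _ _).trans_le hr, ?_⟩
  filter_upwards [Filter.eventually_ge_atTop 10000000,
    (Nat.tendsto_div_const_atTop (by norm_num : 50 ≠ 0)).eventually (final_ev (2 ^ c)
      (y := 1 - 1 / 4 ^ c) (sub_nonneg.2 ((div_le_one (by positivity)).2 c1))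
      (sub_lt_self _ (by positivity)) η0),
    final_cmp (C := 2 * K) (by linarith) one_le_two (by norm_num) (by norm_num) one_half_pos
      (by norm_num : 120 ≠ 0) (by norm_num : (2 : ℝ) ^ 16 * (3 / 4) ^ 39 < 1),
    final_cmp zero_le_one one_le_two (by norm_num) (by norm_num) one_half_pos
      (by norm_num : 53 ≠ 0) (by norm_num : (2 : ℝ) ^ 7 * (2 / 3) ^ 12 < 1)] with n h1 h2 h3 h4
  exact ⟨h1, hK, hc, η0.le, by linarith, by linarith, h0.le,
    fun d hd => h3 _ d (by omega) (by omega),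
    fun e he => (one_mul _).symm.trans_le ((mul_assoc _ _ _).symm.trans_le
      (h4 _ e (by omega) (by omega))), by omega, by omega, by omega⟩

theorem exists_num : ∃ (K η : ℝ) (c K₀ r : ℕ), 3 ≤ c ∧ 2 / K = 1 / 32 ^ 2000 ∧
    (8 : ℝ) / 2 ^ c = 1 / 32 ^ 2000 ∧ (1 - 1 / (8 * 4 ^ c)) ^ r * K ≤ η ∧
    ∀ᶠ n in Filter.atTop, Num n K η (1 + 1 / 10000) c K₀ (33 * n / 250)
      (33 * n / 250 + 1 + n / 2000 + n / 2000) := by
  have h1 : (32 : ℝ) ≤ 32 ^ 2000 := le_self_pow₀ (by norm_num) (by norm_num)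
  have h2 : (2 : ℝ) ^ (3 + 5 * 2000) = 8 * 32 ^ 2000 := by
    rw [pow_add, pow_mul, show (2 : ℝ) ^ 5 = 32 by norm_num, show (2 : ℝ) ^ 3 = 8 by norm_num]
  generalize (32 : ℝ) ^ 2000 = X at h1 h2 ⊢
  obtain ⟨η, K₀, r, p, q⟩ := final_num (K := 2 * X) (by linarith) (c := 3 + 5 * 2000) (by omega)
  exact ⟨2 * X, η, 3 + 5 * 2000, K₀, r, by omega, div_mul_cancel_left₀ two_ne_zero X |>.trans
    (one_div X).symm, by rw [h2, div_mul_cancel_left₀ (by norm_num), one_div], p, q⟩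

theorem final_bad {K β : ℝ} (hK : 0 ≤ K) (h0 : 0 ≤ β) (hβ : β ≤ 2) {n l s m r : ℕ} (hl : l ≤ n)
    (hs : 4 * s ≤ n) (hm : n ≤ 2000 * m + 2000) :
    l * 2 ^ n * (50000 * K * β ^ n * 4 ^ s *
        (4 ^ s * ((1 / 32 ^ 2000) ^ m + (1 / 32 ^ 2000) ^ (m - r))))
      ≤ 100000 * K * 32 ^ (2000 * r + 2000) * (n * (3 / 10) ^ n) * (5 / 6) ^ n := by
  have key : ∀ k, m - r ≤ k → ((1 : ℝ) / 32 ^ 2000) ^ k ≤ 32 ^ (2000 * r + 2000) / 32 ^ n :=
    fun k hk => by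
      rw [one_div_pow, ← pow_mul, div_le_div_iff₀ (by positivity) (by positivity), one_mul,
        ← pow_add]
      exact pow_le_pow_right₀ (by norm_num) (by omega)
  have h1 := add_le_add (key m (Nat.sub_le m r)) (key _ le_rfl)
  have h2 : (4 : ℝ) ^ s * 4 ^ s ≤ 2 ^ n := by
    rw [← mul_pow, show (4 : ℝ) * 4 = 2 ^ 4 by norm_num, ← pow_mul]
    exact pow_le_pow_right₀ one_le_two hs
  have h3 := pow_le_pow_left₀ h0 hβ n
  have h4 : (l : ℝ) ≤ n := Nat.cast_le.2 hl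
  have h5 : (3 / 10 : ℝ) ^ n * (5 / 6) ^ n = 2 ^ n * (2 ^ n * 2 ^ n) / 32 ^ n := by
    rw [← mul_pow, ← mul_pow, ← mul_pow, ← div_pow]
    norm_num
  have h6 := mul_le_mul h4 (mul_le_mul h3 (mul_le_mul h2 h1 (by positivity) (by positivity))
    (by positivity) (by positivity)) (by positivity) (Nat.cast_nonneg n)
  have h7 := mul_le_mul_of_nonneg_left h6 (by positivity : 0 ≤ 50000 * K * 2 ^ n)
  rw [mul_assoc _ _ ((5 / 6 : ℝ) ^ n), mul_assoc (n : ℝ), h5]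
  generalize ((1 : ℝ) / 32 ^ 2000) ^ m + (1 / 32 ^ 2000) ^ (m - r) = T at h7 ⊢
  generalize (32 : ℝ) ^ (2000 * r + 2000) = D at h7 ⊢
  refine le_of_eq_of_le ?_ (h7.trans_eq ?_) <;> ring

theorem final : ∀ᶠ n in Filter.atTop, singProb n ≤ (5 / 6) ^ n := by
  obtain ⟨K, η, c, K₀, r, hc, e1, e2, hr, hN⟩ := exists_num
  obtain ⟨_, h⟩ := hN.exists
  have hK := h.K_le
  have ε0 : (0 : ℝ) < 5 / 18 := by norm_num
  have main : ∀ᶠ n in Filter.atTop, singProb (n + 1) ≤ (5 / 6) ^ (n + 1) := by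
    filter_upwards [hN, final_ev 1 (by norm_num) (by norm_num : (9 / 10 : ℝ) < 1) ε0,
      final_ev' (100000 * K * 32 ^ (2000 * r + 2000)) (by norm_num)
        (by norm_num : (3 / 10 : ℝ) < 1) ε0,
      final_cmp (C := 400000 * K) (by linarith) (by norm_num) (by norm_num) (by norm_num) ε0
        (by norm_num : 250 ≠ 0)
        (by norm_num : ((1 + 1 / 10000) * (6 / 5) : ℝ) ^ 250 * (1 / 4) ^ 33 < 1)] with n H h1 h2 h3
    have hn := H.n_le
    have p0 : (0 : ℝ) < (5 / 6) ^ n := by positivity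
    have t0 := cases H (T := 4 ^ (33 * n / 250 + 1 + n / 2000 + n / 2000) *
      ((2 / K) ^ (n / 2000) + (8 / 2 ^ c) ^ (n / 2000 - r))) (by positivity) fun j hj S hS => by
        have h4 := bad_count (κ := S) (j := j + 1) (L := 33 * n / 250 + 1) (m := n / 2000)
          (by linarith) hc (by omega) ((Fintype.card_coe S).trans hS) hr
        rwa [Fintype.card_coe, hS] at h4
    rw [e1, e2] at t0
    have t1 : (3 / 4 : ℝ) ^ n ≤ 5 / 18 * (5 / 6) ^ n := by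
      rw [show (3 / 4 : ℝ) = 9 / 10 * (5 / 6) by norm_num, mul_pow]
      exact mul_le_mul_of_nonneg_right ((one_mul _).symm.trans_le h1) p0.le
    have t2 := (final_bad (K := K) (β := 1 + 1 / 10000) (by linarith) (by norm_num) (by norm_num)
      (n := n) (l := 33 * n / 250) (s := 33 * n / 250 + 1 + n / 2000 + n / 2000) (m := n / 2000)
      (r := r) (by omega) (by omega) (by omega)).trans (mul_le_mul_of_nonneg_right h2 p0.le)
    have t3 := mul_le_mul_of_nonneg_right (h3 n (33 * n / 250 + 1) (by omega) (by omega)) p0.le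
    have e3 : 400000 * K * ((1 + 1 / 10000) * (6 / 5)) ^ n * (1 / 4) ^ (33 * n / 250 + 1)
        * (5 / 6) ^ n = 100000 * K * (1 + 1 / 10000) ^ n / 4 ^ (33 * n / 250) := by
      have e4 : (6 / 5 : ℝ) ^ n * (5 / 6) ^ n = 1 := by
        rw [← mul_pow]
        norm_num
      rw [mul_pow, pow_succ, one_div_pow]
      generalize (1 + 1 / 10000 : ℝ) ^ n = B
      linear_combination 100000 * K * B / 4 ^ (33 * n / 250) * e4
    rw [e3] at t3
    refine ((singProb_succ n).trans (t0.trans (add_le_add (add_le_add t1 t2) t3))).trans_eq ?_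
    rw [pow_succ]
    linarith only
  obtain ⟨N, hN⟩ := Filter.eventually_atTop.1 main
  refine Filter.eventually_atTop.2 ⟨N + 1, fun n hn => ?_⟩
  obtain ⟨k, rfl⟩ : ∃ k, n = k + 1 := ⟨n - 1, by omega⟩
  exact hN k (by omega)

end Vale.Agent.P160
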