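import Vale.Agent.P160.Basic

/-! Fourier analysis and the AM-GM step. -/

open Finset

namespace Vale.Agent.P160

variable {G : Type} [AddCommGroup G] [Fintype G]

omit [Fintype G] in
theorem four_map_sum {κ : Type} (χ : AddChar G ℂ) (s : Finset κ) (f : κ → G) :
    χ (∑ k ∈ s, f k) = ∏ k ∈ s, χ (f k) := by
  classical
  induction s using Finset.induction_on with
  | empty => simp
  | insert a s ha ih => rw [Finset.sum_insert ha, Finset.prod_insert ha, χ.map_add_eq_mul, ih]

omit [Fintype G] in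
theorem four_char {κ : Type} [Fintype κ] [DecidableEq κ] (χ : AddChar G ℂ) (z : κ → G) :
    ∑ ω : κ → Bool, χ (ssum z ω) = ∏ k, (1 + χ (z k)) := by
  have : ∀ k, 1 + χ (z k) = ∑ b : Bool, χ (if b then z k else 0) := fun k => by
    simp [add_comm]
  simp only [this, ssum, four_map_sum]
  rw [Finset.prod_univ_sum, Fintype.piFinset_univ]

theorem four_ind (a b : G) :
    ((ind (a = b) : ℝ) : ℂ) = (∑ χ : AddChar G ℂ, χ a * χ (-b)) / Fintype.card G := by
  classical
  have hG : (Fintype.card G : ℂ) ≠ 0 := Nat.cast_ne_zero.2 Fintype.card_ne_zero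
  simp only [← AddChar.map_add_eq_mul, ← sub_eq_add_neg, AddChar.sum_apply_eq_ite, sub_eq_zero]
  by_cases h : a = b
  · rw [ind_pos h, if_pos h, div_self hG]; simp
  · rw [ind_neg h, if_neg h]; simp

theorem pt_le_four {κ : Type} [Fintype κ] [DecidableEq κ] (z : κ → G) (x : G) :
    pt z x ≤ (∑ χ : AddChar G ℂ, ∏ k, ‖1 + χ (z k)‖ / 2) / Fintype.card G := by
  have e : ((∑ ω : κ → Bool, ind (ssum z ω = x) : ℝ) : ℂ) =
      (∑ χ : AddChar G ℂ, (∏ k, (1 + χ (z k))) * χ (-x)) / Fintype.card G := by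
    push_cast
    simp only [four_ind, ← Finset.sum_div]
    rw [Finset.sum_comm]
    simp only [← Finset.sum_mul, four_char]
  have h1 : (∑ ω : κ → Bool, ind (ssum z ω = x) : ℝ) ≤
      (∑ χ : AddChar G ℂ, ∏ k, ‖1 + χ (z k)‖) / Fintype.card G := by
    refine (le_abs_self _).trans ?_
    rw [← Real.norm_eq_abs, ← Complex.norm_real, e, norm_div, Complex.norm_natCast]
    refine div_le_div_of_nonneg_right ((norm_sum_le _ _).trans (le_of_eq ?_)) (Nat.cast_nonneg _)
    simp only [norm_mul, AddChar.norm_apply, mul_one, norm_prod]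
  unfold pt pr
  simp only [Finset.prod_div_distrib, Finset.prod_const, Finset.card_univ, ← Finset.sum_div,
    Fintype.card_fun, Fintype.card_bool, Nat.cast_pow, Nat.cast_ofNat]
  rw [div_right_comm]
  exact div_le_div_of_nonneg_right h1 (by positivity)

theorem coll_eq_four {κ : Type} [Fintype κ] [DecidableEq κ] (z : κ → G) :
    coll z = (∑ χ : AddChar G ℂ, ∏ k, (‖1 + χ (z k)‖ / 2) ^ 2) / Fintype.card G := by
  have e : ((∑ p : (κ → Bool) × (κ → Bool), ind (ssum z p.1 = ssum z p.2) : ℝ) : ℂ) =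
      (((∑ χ : AddChar G ℂ, ∏ k, ‖1 + χ (z k)‖ ^ 2) / Fintype.card G : ℝ) : ℂ) := by
    push_cast
    simp only [four_ind, ← Finset.sum_div]
    rw [Finset.sum_comm]
    congr 1
    refine Finset.sum_congr rfl fun χ _ => ?_
    rw [Fintype.sum_prod_type]
    simp only [AddChar.map_neg_eq_conj]
    rw [← Finset.sum_mul_sum, ← map_sum (starRingEnd ℂ), four_char, map_prod, ← Finset.prod_mul_distrib]
    exact Finset.prod_congr rfl fun k _ => Complex.mul_conj' _
  unfold coll pr
  rw [Complex.ofReal_inj.1 e]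
  simp only [div_pow, Finset.prod_div_distrib, Finset.prod_const, Finset.card_univ,
    ← Finset.sum_div, Fintype.card_fun, Fintype.card_bool, Fintype.card_prod, Nat.cast_pow,
    Nat.cast_mul, Nat.cast_ofNat]
  rw [div_right_comm, ← mul_pow]
  norm_num

theorem amgm {E Λ : Type} [Fintype E] [DecidableEq E] (z : E → G) (x : G) (F : Finset Λ)
    (hF : F.Nonempty) (H : Λ → Finset E)
    (h : ∀ e, 2 * (F.filter fun P => e ∈ H P).card ≤ F.card) :
    pt z x ≤ (∑ P ∈ F, coll fun e : H P => z e) / F.card := by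
  have hc : (0 : ℝ) < F.card := Nat.cast_pos.2 hF.card_pos
  refine (pt_le_four z x).trans ?_
  simp only [coll_eq_four, ← Finset.sum_div]
  rw [div_right_comm, Finset.sum_comm]
  refine div_le_div_of_nonneg_right ?_ (Nat.cast_nonneg (α := ℝ) _)
  rw [Finset.sum_div]
  refine Finset.sum_le_sum fun χ _ => ?_
  set y : E → ℝ := fun e => ‖1 + χ (z e)‖ / 2 with hy
  have y0 : ∀ e, 0 ≤ y e := fun e => by positivity
  have y1 : ∀ e, y e ≤ 1 := fun e => by
    have : ‖1 + χ (z e)‖ ≤ 2 := (norm_add_le _ _).trans (by rw [AddChar.norm_apply]; norm_num)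
    simp only [hy]; linarith
  have hg := Real.geom_mean_le_arith_mean_weighted F (fun _ => (F.card : ℝ)⁻¹)
    (fun P => ∏ e : H P, y e ^ 2) (fun _ _ => by positivity)
    (by rw [Finset.sum_const, nsmul_eq_mul, mul_inv_cancel₀ hc.ne'])
    (fun P _ => Finset.prod_nonneg fun e _ => sq_nonneg _)
  rw [← Finset.mul_sum, ← div_eq_inv_mul,
    Real.finsetProd_rpow _ _ (fun P _ => Finset.prod_nonneg fun e _ => sq_nonneg _)] at hg
  refine le_trans ?_ hg
  have e1 : ∏ P ∈ F, ∏ e : H P, y e ^ 2 =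
      ∏ e, y e ^ (2 * (F.filter fun P => e ∈ H P).card) := by
    have : ∀ P, ∏ e : H P, y e ^ 2 = ∏ e, if e ∈ H P then y e ^ 2 else 1 := fun P => by
      rw [Finset.prod_coe_sort (H P) fun e => y e ^ 2, ← Finset.prod_filter]
      simp
    simp only [this]
    rw [Finset.prod_comm]
    refine Finset.prod_congr rfl fun e _ => ?_
    rw [← Finset.prod_filter, Finset.prod_const, pow_mul]
  have e2 : (∏ e, y e) ^ F.card ≤ ∏ P ∈ F, ∏ e : H P, y e ^ 2 := by
    rw [e1, ← Finset.prod_pow]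
    exact Finset.prod_le_prod (fun e _ => pow_nonneg (y0 e) _)
      fun e _ => pow_le_pow_of_le_one (y0 e) (y1 e) (h e)
  have p0 : 0 ≤ ∏ e, y e := Finset.prod_nonneg fun e _ => y0 e
  refine le_trans (le_of_eq ?_) (Real.rpow_le_rpow (pow_nonneg p0 _) e2 (by positivity))
  rw [Real.pow_rpow_inv_natCast p0 hF.card_pos.ne']

end Vale.Agent.P160
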