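import Vale.Agent.P160.Basic

/-! Counting solutions modulo powers of two. -/

open Finset

namespace Vale.Agent.P160

theorem Ker_dvd {κ J : Type} [Fintype κ] (ρ : κ → J → ℤ) (ζ : κ → ℤ)
    (h : LinearIndependent (ZMod 2)
      fun i => (((fun b => (ρ i b : ZMod 2)), (ζ i : ZMod 2)) : Vx J)) (j : ℕ) :
    ∀ c : κ → ℤ, (∀ b, (2 : ℤ) ^ j ∣ ∑ i, ρ i b * c i) → (2 : ℤ) ^ j ∣ ∑ i, ζ i * c i →
      ∀ i, (2 : ℤ) ^ j ∣ c i := by
  induction j with
  | zero => simp
  | succ j ih =>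
    intro c h1 h2
    have k : ∀ f : κ → ℤ, (2 : ℤ) ^ (j + 1) ∣ ∑ i, f i * c i →
        ∑ i, (c i : ZMod 2) * (f i : ZMod 2) = 0 := fun f hf => by
      have := (ZMod.intCast_zmod_eq_zero_iff_dvd _ 2).2 ((Dvd.intro_left _ (pow_succ 2 j).symm).trans hf)
      push_cast at this
      simpa only [mul_comm] using this
    have h3 := Fintype.linearIndependent_iff.1 h (fun i => (c i : ZMod 2)) (by
      ext b
      · simpa [Prod.fst_sum] using k (fun i => ρ i b) (h1 b)
      · simpa [Prod.snd_sum] using k ζ h2)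
    choose d hd using fun i => (ZMod.intCast_zmod_eq_zero_iff_dvd (c i) 2).1 (h3 i)
    obtain rfl : c = fun i => 2 * d i := funext hd
    have k2 : ∀ f : κ → ℤ, (2 : ℤ) ^ (j + 1) ∣ ∑ i, f i * (2 * d i) →
        (2 : ℤ) ^ j ∣ ∑ i, f i * d i := fun f hf => by
      have e : ∑ i, f i * (2 * d i) = 2 * ∑ i, f i * d i := by
        rw [Finset.mul_sum]
        exact Finset.sum_congr rfl fun i _ => by ring
      rwa [e, pow_succ', mul_dvd_mul_iff_left two_ne_zero] at hf
    intro i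
    rw [pow_succ']
    exact mul_dvd_mul_left 2 (ih d (fun b => k2 _ (h1 b)) (k2 _ h2) i)

theorem Ker_two {j : ℕ} {x x' : ℤ} (h : (2 : ℤ) ^ j ∣ 2 * x) (h' : (2 : ℤ) ^ j ∣ 2 * x')
    (e : (2 : ℤ) ^ j ∣ x ↔ (2 : ℤ) ^ j ∣ x') : (2 : ℤ) ^ j ∣ x - x' := by
  cases j with
  | zero => simp
  | succ k =>
    rw [pow_succ', mul_dvd_mul_iff_left two_ne_zero] at h h'
    obtain ⟨s, rfl⟩ := h
    obtain ⟨s', rfl⟩ := h'
    have h0 : (2 : ℤ) ^ k ≠ 0 := by positivity
    rw [pow_succ, mul_dvd_mul_iff_left h0, mul_dvd_mul_iff_left h0] at e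
    rw [pow_succ, ← mul_sub, mul_dvd_mul_iff_left h0]
    omega

theorem ker_count {A J : Type} [Fintype A] [DecidableEq A] [Fintype J] (j : ℕ) (ρ : A → J → ℤ)
    (ζ : A → ℤ) (y : J → ℤ) (y' : ℤ) :
    ∑ u : A → ZMod (2 ^ j), ind ((∀ b, (2 : ℤ) ^ j ∣ ∑ i, ρ i b * (u i).val + y b) ∧
      (2 : ℤ) ^ j ∣ 2 * (∑ i, ζ i * (u i).val + y')) ≤
    2 * (2 ^ j) ^ (Fintype.card A - Module.finrank (ZMod 2) (Submodule.span (ZMod 2)
      (Set.range fun i => (((fun b => (ρ i b : ZMod 2)), (ζ i : ZMod 2)) : Vx J)))) := by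
  classical
  obtain ⟨κ, a, ha, hsp, hli⟩ := exists_linearIndependent' (ZMod 2)
    fun i => (((fun b => (ρ i b : ZMod 2)), (ζ i : ZMod 2)) : Vx J)
  have := Fintype.ofInjective a ha
  rw [← hsp, finrank_span_eq_card hli, sum_ind]
  have hc : Fintype.card {i // i ∉ Set.range a} = Fintype.card A - Fintype.card κ := by
    rw [Fintype.card_subtype_compl, Set.card_range_of_injective ha]
  have key := Finset.card_le_card_of_injOn
    (s := univ.filter fun u : A → ZMod (2 ^ j) =>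
      (∀ b, (2 : ℤ) ^ j ∣ ∑ i, ρ i b * (u i).val + y b) ∧
        (2 : ℤ) ^ j ∣ 2 * (∑ i, ζ i * (u i).val + y'))
    (t := (univ : Finset (Bool × ({i // i ∉ Set.range a} → ZMod (2 ^ j)))))
    (fun u => (decide ((2 : ℤ) ^ j ∣ ∑ i, ζ i * (u i).val + y'), fun i => u i))
    (fun _ _ => mem_coe.2 (mem_univ _)) (by
      intro u hu u' hu' e
      obtain ⟨h1, h2⟩ := (mem_filter.1 (mem_coe.1 hu)).2
      obtain ⟨h1', h2'⟩ := (mem_filter.1 (mem_coe.1 hu')).2
      obtain ⟨e1, e2⟩ := Prod.mk.inj e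
      have off : ∀ i, i ∉ Set.range a → u i = u' i := fun i hi => congrFun e2 ⟨i, hi⟩
      have hs : ∀ f : A → ℤ, ∑ k, f (a k) * (((u (a k)).val : ℤ) - (u' (a k)).val) =
          ∑ i, f i * (u i).val - ∑ i, f i * (u' i).val := fun f => by
        rw [← Finset.sum_sub_distrib]
        refine Fintype.sum_of_injective a ha _ _ (fun i hi => by rw [off i hi, sub_self])
          fun k => mul_sub _ _ _
      have h3 := Ker_dvd (fun k => ρ (a k)) (fun k => ζ (a k)) hli j
        (fun k => ((u (a k)).val : ℤ) - (u' (a k)).val)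
        (fun b => by
          rw [hs fun i => ρ i b]
          simpa using dvd_sub (h1 b) (h1' b))
        (by
          rw [hs ζ]
          simpa using Ker_two h2 h2' (decide_eq_decide.1 e1))
      funext i
      by_cases hi : i ∈ Set.range a
      · obtain ⟨k, rfl⟩ := hi
        have h4 := (ZMod.intCast_eq_intCast_iff_dvd_sub ((u' (a k)).val : ℤ) ((u (a k)).val : ℤ)
          (2 ^ j)).2 (by simpa using h3 k)
        simpa using h4.symm
      · exact off i hi)
  rw [card_univ, Fintype.card_prod, Fintype.card_bool, Fintype.card_fun, ZMod.card, hc] at key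
  exact_mod_cast key

end Vale.Agent.P160
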