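import Vale.Agent.P160.Basic

/-! Monotonicity of the law of subset sums. -/

open Finset

namespace Vale.Agent.P160

variable {κ κ' G : Type} [Fintype κ] [DecidableEq κ] [Fintype κ'] [DecidableEq κ']

theorem ssum_equiv [AddCommMonoid G] (e : κ ≃ κ') (z : κ' → G) (ω : κ' → Bool) :
    ssum (fun k => z (e k)) (fun k => ω (e k)) = ssum z ω := by
  exact Equiv.sum_comp e fun k => if ω k then z k else 0

theorem pt_equiv [AddCommMonoid G] (e : κ ≃ κ') (z : κ' → G) (x : G) :
    pt (fun k => z (e k)) x = pt z x := by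
  unfold pt
  rw [← pr_equiv (Equiv.arrowCongr e.symm (Equiv.refl Bool))]
  refine pr_congr fun ω => ?_
  rw [← ssum_equiv e z ω]
  rfl

theorem coll_equiv [AddCommMonoid G] (e : κ ≃ κ') (z : κ' → G) :
    coll (fun k => z (e k)) = coll z := by
  unfold coll
  rw [← pr_equiv ((Equiv.arrowCongr e.symm (Equiv.refl Bool)).prodCongr
    (Equiv.arrowCongr e.symm (Equiv.refl Bool)))]
  refine pr_congr fun ω => ?_
  rw [← ssum_equiv e z ω.1, ← ssum_equiv e z ω.2]
  rfl

theorem ssum_elim [AddCommMonoid G] (z : κ → G) (z' : κ' → G) (ω : κ ⊕ κ' → Bool) :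
    ssum (Sum.elim z z') ω = ssum z (fun k => ω (.inl k)) + ssum z' fun k => ω (.inr k) := by
  simp only [ssum, Fintype.sum_sum_type, Sum.elim_inl, Sum.elim_inr]

omit [Fintype κ] [DecidableEq κ] [Fintype κ'] in
theorem mono_split [Fintype κ] {f : κ → κ'} (hf : Function.Injective f) :
    ∃ e : κ ⊕ {k // k ∉ Set.range f} ≃ κ', ∀ k, e (.inl k) = f k :=
  ⟨((Equiv.ofInjective f hf).sumCongr (Equiv.refl _)).trans (Equiv.sumCompl (· ∈ Set.range f)),
    fun _ => rfl⟩

theorem mono_elim {α β γ G : Type} (e : α ⊕ β ≃ γ) (z : γ → G) :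
    (fun k => z (e k)) = Sum.elim (fun k => z (e (.inl k))) fun k => z (e (.inr k)) := by
  funext k; cases k <;> rfl

theorem mono_pt_elim [AddCommMonoid G] (z : κ → G) (z' : κ' → G) (x : G) :
    pt (Sum.elim z z') x =
      pr fun p : (κ → Bool) × (κ' → Bool) => ssum z p.1 + ssum z' p.2 = x := by
  unfold pt
  rw [← pr_equiv (Equiv.sumArrowEquivProdArrow κ κ' Bool)]
  refine pr_congr fun ω => ?_
  rw [ssum_elim]
  rfl

theorem pt_le_of_sub [AddCommGroup G] {f : κ → κ'} (hf : Function.Injective f) (z : κ' → G) {c : ℝ}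
    (h : ∀ y, pt (fun k => z (f k)) y ≤ c) (x : G) : pt z x ≤ c := by
  obtain ⟨e, he⟩ := mono_split hf
  have hc : 0 ≤ c := (pr_nonneg _).trans (h x)
  rw [← pt_equiv e, mono_elim e z, mono_pt_elim]
  rw [← pr_equiv (Equiv.prodComm _ _)]
  refine pr_prod_le' hc fun ω => ?_
  refine le_trans (pr_mono fun ω' h' => ?_) (h (x - ssum (fun k => z (e (.inr k))) ω))
  simp only [Equiv.prodComm_apply, Prod.swap, he] at h'
  exact eq_sub_of_add_eq h'

theorem pt_sub_le [AddCommGroup G] {f : κ → κ'} (hf : Function.Injective f) (z : κ' → G) (x : G) :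
    pt (fun k => z (f k)) x ≤ 2 ^ (Fintype.card κ' - Fintype.card κ) * pt z x := by
  obtain ⟨e, he⟩ := mono_split hf
  have hc : Fintype.card κ' - Fintype.card κ = Fintype.card {k // k ∉ Set.range f} := by
    rw [← Fintype.card_congr e, Fintype.card_sum]; omega
  rw [← pt_equiv e z, mono_elim e z, mono_pt_elim, ← pr_equiv (Equiv.prodComm _ _), pr_prod, hc,
    Fintype.card_fun, Fintype.card_bool, Nat.cast_pow, Nat.cast_ofNat,
    mul_div_cancel₀ _ (by positivity)]
  refine le_trans (le_of_eq ?_) (Finset.single_le_sum (f := fun a => pr fun b : κ → Bool =>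
    ssum (fun k => z (e (.inl k))) b + ssum (fun k => z (e (.inr k))) a = x)
    (fun _ _ => pr_nonneg _) (mem_univ fun _ => false))
  simp only [he, ssum, Bool.false_eq_true, if_false, Finset.sum_const_zero, add_zero]
  rfl

theorem pr_diff_mem [AddCommGroup G] (z : κ → G) {c : ℝ} (h : ∀ y, pt z y ≤ c) (T : Finset G) :
    pr (fun p : (κ → Bool) × (κ → Bool) => ssum z p.1 - ssum z p.2 ∈ T) ≤ T.card * c := by
  have hc : 0 ≤ c := (pr_nonneg _).trans (h 0)
  rw [← pr_equiv (Equiv.prodComm _ _)]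
  refine pr_prod_le' (by positivity) fun ω => ?_
  refine le_trans (pr_mono (q := fun ω' => ∃ y : T, ssum z ω' = y + ssum z ω) fun ω' h' =>
    ⟨⟨_, h'⟩, by simp⟩) ((pr_exists _).trans ?_)
  refine (Finset.sum_le_sum fun (y : T) _ => h (y + ssum z ω)).trans ?_
  simp

omit [DecidableEq κ] in
theorem mono_map {G' : Type} [AddCommGroup G] [AddCommGroup G'] (φ : G →+ G') (z : κ → G)
    (ω : κ → Bool) : ssum (fun k => φ (z k)) ω = φ (ssum z ω) := by
  simp only [ssum, map_sum, apply_ite φ, map_zero]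

theorem mono_pd [AddCommGroup G] (z : κ → G) (x : G) :
    pr (fun p : (κ → Bool) × (κ → Bool) => ssum z p.1 = ssum z p.2 + x) ≤ coll z := by
  classical
  let N : G → ℝ := fun y => ∑ ω : κ → Bool, ind (ssum z ω = y)
  let T : Finset G := univ.image (ssum z)
  have hN : ∀ y ∉ T, N y = 0 := fun y hy => Finset.sum_eq_zero fun ω _ =>
    ind_neg fun h => hy (Finset.mem_image.2 ⟨ω, mem_univ _, h⟩)
  have key : ∀ x, ∑ p : (κ → Bool) × (κ → Bool), ind (ssum z p.1 = ssum z p.2 + x) =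
      ∑ y ∈ T, N y * N (y + x) := fun x => by
    rw [Fintype.sum_prod_type_right]
    have : ∀ ω : κ → Bool, N (ssum z ω + x) = ∑ y ∈ T, ind (ssum z ω = y) * N (y + x) := by
      intro ω
      rw [Finset.sum_eq_single (ssum z ω), ind_pos rfl, one_mul]
      · intro y _ hy; rw [ind_neg hy.symm, zero_mul]
      · intro h; exact absurd (Finset.mem_image_of_mem _ (mem_univ ω)) h
    refine (Finset.sum_congr rfl fun ω _ => this ω).trans ?_
    rw [Finset.sum_comm]
    exact Finset.sum_congr rfl fun y _ => (Finset.sum_mul _ _ _).symm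
  have h0 := key 0
  simp only [add_zero] at h0
  unfold coll pr
  refine div_le_div_of_nonneg_right ?_ (Nat.cast_nonneg _)
  rw [key, h0]
  have h1 : ∑ y ∈ T, N (y + x) * N (y + x) ≤ ∑ y ∈ T, N y * N y := by
    rw [← Finset.sum_image (s := T) (g := fun y => y + x) (f := fun y => N y * N y)
      (fun a _ b _ h => add_right_cancel h)]
    refine (Finset.sum_le_sum_of_subset_of_nonneg (subset_union_left (s₂ := T))
      fun y _ _ => mul_self_nonneg _).trans (le_of_eq (Finset.sum_subset subset_union_right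
      fun y _ hy => by rw [hN y hy, mul_zero]).symm)
  have h2 : ∑ y ∈ T, 2 * (N y * N (y + x)) ≤ ∑ y ∈ T, (N y * N y + N (y + x) * N (y + x)) :=
    Finset.sum_le_sum fun y _ => by nlinarith [sq_nonneg (N y - N (y + x))]
  rw [← Finset.mul_sum, Finset.sum_add_distrib] at h2
  linarith

theorem coll_elim_le {G' : Type} [AddCommGroup G] [AddCommGroup G'] (φ : G →+ G') (z : κ → G)
    (z' : κ' → G) (h : ∀ k, φ (z' k) = 0) :
    coll (Sum.elim z z') ≤ coll (fun k => φ (z k)) * coll z' := by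
  have e1 : coll (Sum.elim z z') = pr fun p : ((κ → Bool) × (κ → Bool)) ×
      ((κ' → Bool) × (κ' → Bool)) => ssum z p.1.1 + ssum z' p.2.1 = ssum z p.1.2 + ssum z' p.2.2 := by
    unfold coll
    rw [← pr_equiv (((Equiv.sumArrowEquivProdArrow κ κ' Bool).prodCongr
      (Equiv.sumArrowEquivProdArrow κ κ' Bool)).trans (Equiv.prodProdProdComm _ _ _ _))]
    refine pr_congr fun ω => ?_
    rw [ssum_elim, ssum_elim]
    rfl
  rw [e1]
  refine pr_prod_le (pr_nonneg _) fun a => ?_
  by_cases ha : ssum (fun k => φ (z k)) a.1 = ssum (fun k => φ (z k)) a.2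
  · rw [ind_pos ha, one_mul]
    refine le_trans (pr_mono fun b hb => ?_) (mono_pd z' (ssum z a.2 - ssum z a.1))
    rw [eq_sub_iff_add_eq.2 (add_comm (ssum z' b.1) _ ▸ hb : ssum z' b.1 + ssum z a.1 = _)]
    abel
  · rw [ind_neg ha, zero_mul]
    refine le_of_eq (pr_of_not fun b hb => ha ?_)
    have h0 : ∀ ω, φ (ssum z' ω) = 0 := fun ω => by
      rw [← mono_map]
      exact Finset.sum_eq_zero fun k _ => by simp [h k]
    have := congrArg φ hb
    rwa [map_add, map_add, h0, h0, add_zero, add_zero, ← mono_map, ← mono_map] at this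

theorem mu_nonneg {Q : ℕ} [NeZero Q] (σ : Bool) (a : ZMod Q) : 0 ≤ mu σ a := by
  unfold mu; positivity

theorem mu_le_one {Q : ℕ} [NeZero Q] (σ : Bool) (a : ZMod Q) : mu σ a ≤ 1 := by
  have h : ‖1 + (if σ then -1 else 1) * ZMod.stdAddChar a‖ ≤ 2 := by
    refine (norm_add_le _ _).trans ?_
    rw [norm_mul, norm_one, AddChar.norm_apply]
    cases σ <;> norm_num
  unfold mu
  nlinarith [norm_nonneg (1 + (if σ then -1 else 1) * ZMod.stdAddChar a)]

variable {ι : Type} [Fintype ι] [DecidableEq ι] {Q : ℕ} [NeZero Q] {K η : ℝ} {c s : ℕ}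
  {w : ι → ZMod Q}

omit [DecidableEq κ] [Fintype ι] in
theorem mono_sub {f : κ → ι} (hf : Function.Injective f) (hs : s ≤ Fintype.card κ) :
    ∃ S : Finset ι, S.card = s ∧ ∃ g : S → κ, Function.Injective g ∧ ∀ k, f (g k) = k := by
  obtain ⟨S, hS, hc⟩ := Finset.exists_subset_card_eq (s := univ.map ⟨f, hf⟩) (n := s)
    (by simpa using hs)
  have : ∀ k : S, ∃ a, f a = k := fun k => by
    obtain ⟨a, -, ha⟩ := Finset.mem_map.1 (hS k.2)
    exact ⟨a, ha⟩
  choose g hg using this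
  exact ⟨S, hc, g, fun a b h => Subtype.ext (by rw [← hg a, ← hg b, h]), hg⟩

theorem Good.flat (hw : Good K c η s w) {f : κ → ι} (hf : Function.Injective f)
    (hs : s ≤ Fintype.card κ) : Flat K fun k => w (f k) := by
  obtain ⟨S, hS, g, hg, hgf⟩ := mono_sub hf hs
  intro x
  refine pt_le_of_sub hg (fun k => w (f k)) (fun y => ?_) x
  simp only [hgf]
  exact (hw S hS).1 y

theorem Good.high (hw : Good K c η s w) {f : κ → ι} (hf : Function.Injective f)
    (hs : s ≤ Fintype.card κ) (σ : κ → Bool) : hi c (fun k => w (f k)) σ ≤ η := by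
  obtain ⟨S, hS, g, hg, hgf⟩ := mono_sub hf hs
  refine le_trans ?_ ((hw S hS).2 fun k => σ (g k))
  refine Finset.sum_le_sum fun θ _ => mul_le_mul_of_nonneg_left ?_ (ind_nonneg _)
  have e : ∏ k : S, mu (σ (g k)) (θ * w k) =
      ∏ k ∈ univ.map ⟨g, hg⟩, mu (σ k) (θ * w (f k)) := by
    rw [Finset.prod_map]
    simp only [Function.Embedding.coeFn_mk, hgf]
  rw [e]
  exact Finset.prod_le_prod_of_subset_of_le_one (subset_univ _) (fun k _ => mu_nonneg _ _)
    fun k _ _ => mu_le_one _ _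

theorem Good.flat_small (hw : Good K c η s w) (hK : 0 ≤ K) (hs : s ≤ Fintype.card ι) {f : κ → ι}
    (hf : Function.Injective f) (x : ZMod Q) :
    pt (fun k => w (f k)) x ≤ K / Q * (1 + 2 ^ s / 2 ^ Fintype.card κ) := by
  have h0 : 0 ≤ K / Q := by positivity
  rcases le_total s (Fintype.card κ) with h | h
  · refine (hw.flat hf h x).trans (le_mul_of_one_le_right h0 ?_)
    exact le_add_of_nonneg_right (by positivity)
  · obtain ⟨S, hS1, -, hS⟩ := Finset.exists_subsuperset_card_eq (subset_univ (univ.map ⟨f, hf⟩))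
      (n := s) (by simpa using h) (by simpa using hs)
    let g : κ → S := fun k => ⟨f k, hS1 (Finset.mem_map_of_mem ⟨f, hf⟩ (mem_univ k))⟩
    have hg : Function.Injective g := fun a b hab => hf (congrArg Subtype.val hab)
    have h1 := pt_sub_le hg (fun k : S => w k) x
    rw [Fintype.card_coe, hS, pow_sub₀ _ two_ne_zero h] at h1
    refine h1.trans ((mul_le_mul_of_nonneg_left ((hw S hS).1 x) (by positivity)).trans ?_)
    rw [mul_comm, div_eq_mul_inv ((2 : ℝ) ^ s)]
    exact mul_le_mul_of_nonneg_left (le_add_of_nonneg_left zero_le_one) h0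

theorem card_half (j : ℕ) (hj : 1 ≤ j) (y : ℤ) : ∃ T : Finset (ZMod (2 ^ (j + 1))), T.card ≤ 4 ∧
    ∀ x : ℤ, (2 : ℤ) ^ j ∣ 2 * x - y → (x : ZMod (2 ^ (j + 1))) ∈ T := by
  obtain ⟨i, rfl⟩ : ∃ i, j = i + 1 := ⟨j - 1, by omega⟩
  refine ⟨(range 4).image fun k : ℕ => ((y / 2 + k * 2 ^ i : ℤ) : ZMod (2 ^ (i + 1 + 1))),
    card_image_le.trans (by simp), fun x hx => ?_⟩
  obtain ⟨m, hm⟩ := hx
  have h1 : x - y / 2 = 2 ^ i * m := by
    rw [pow_succ] at hm
    have : 2 * x - y = 2 * (2 ^ i * m) := by rw [hm]; ring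
    omega
  refine Finset.mem_image.2 ⟨(m % 4).toNat, mem_range.2 (by omega), ?_⟩
  rw [Int.toNat_of_nonneg (by omega), ZMod.intCast_eq_intCast_iff_dvd_sub]
  refine ⟨m / 4, ?_⟩
  have h2 : m = 4 * (m / 4) + m % 4 := by omega
  push_cast
  linear_combination h1 + 2 ^ i * h2

end Vale.Agent.P160
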