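import Vale.Agent.P160.Mono

/-! Negative correlation, large codimension. -/

open Finset

namespace Vale.Agent.P160

variable {J : Type} [Fintype J] [DecidableEq J]

/-- The weight of one coordinate. -/
noncomputable def nclH (z : ZMod 2) : ℝ := if z ≠ 0 then 1 / 2 else 1

theorem ncl_nonneg (z : ZMod 2) : 0 ≤ nclH z := by
  unfold nclH
  split_ifs <;> norm_num

theorem ncl_le (z : ZMod 2) : nclH z ≤ 1 := by
  unfold nclH
  split_ifs <;> norm_num

theorem ncl_add (z : ZMod 2) : nclH z + nclH (z + 1) = 3 / 2 := by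
  rcases (by decide : ∀ z : ZMod 2, (z = 0 ∧ z + 1 ≠ 0) ∨ (z ≠ 0 ∧ z + 1 = 0)) z with h | h
  · rw [nclH, nclH, if_neg (not_not.2 h.1), if_pos h.2]
    norm_num
  · rw [nclH, nclH, if_neg (not_not.2 h.2), if_pos h.1]
    norm_num

theorem ncl_aux (T : Finset J) (U : Submodule (ZMod 2) (J → ZMod 2))
    (h : ∀ a ∈ U, (∀ b ∈ T, a b = 0) → a = 0) (c : J → ZMod 2) :
    ∑ a : J → ZMod 2, ind (a ∈ U) * ∏ b ∈ T, nclH (c b + a b) ≤
      (3 / 2) ^ Module.finrank (ZMod 2) U := by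
  induction T using Finset.induction_on generalizing U c with
  | empty =>
    simp only [prod_empty, mul_one]
    rw [sum_eq_single 0 (fun a _ ha => ind_neg fun h1 => ha (h a h1 (by simp))) (by simp)]
    exact (ind_le_one _).trans (one_le_pow₀ (by norm_num))
  | insert b0 T hb ih =>
    have hp : ∀ c a : J → ZMod 2, 0 ≤ ∏ b ∈ T, nclH (c b + a b) := fun c a =>
      prod_nonneg fun _ _ => ncl_nonneg _
    simp only [prod_insert hb]
    by_cases h0 : ∀ a ∈ U, a b0 = 0
    · refine le_trans (sum_le_sum fun a _ => mul_le_mul_of_nonneg_left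
        (mul_le_of_le_one_left (hp c a) (ncl_le _)) (ind_nonneg _)) (ih U (fun a ha h1 => ?_) c)
      exact h a ha (forall_mem_insert _ _ _ |>.2 ⟨h0 a ha, h1⟩)
    push Not at h0
    obtain ⟨a0, ha0, h1⟩ := h0
    replace h1 : a0 b0 = 1 := (by decide : ∀ z : ZMod 2, z ≠ 0 → z = 1) _ h1
    let U0 := U ⊓ LinearMap.ker (LinearMap.proj (R := ZMod 2) (φ := fun _ : J => ZMod 2) b0)
    have hm : ∀ a, a ∈ U0 ↔ a ∈ U ∧ a b0 = 0 := fun a => Iff.rfl
    have hlt : Module.finrank (ZMod 2) U0 < Module.finrank (ZMod 2) U :=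
      Submodule.finrank_lt_finrank_of_lt (lt_of_le_of_ne inf_le_left fun he => by
        have := ((hm a0).1 (he ▸ ha0)).2
        rw [h1] at this
        exact one_ne_zero this)
    have key : ∀ c : J → ZMod 2, ∑ a : J → ZMod 2, ind (a ∈ U0) *
        (nclH (c b0 + a b0) * ∏ b ∈ T, nclH (c b + a b)) ≤
          nclH (c b0) * (3 / 2) ^ Module.finrank (ZMod 2) U0 := fun c => by
      refine le_trans (le_of_eq ?_) (mul_le_mul_of_nonneg_left (ih U0 (fun a ha h1 => h a
        ((hm a).1 ha).1 (forall_mem_insert _ _ _ |>.2 ⟨((hm a).1 ha).2, h1⟩)) c) (ncl_nonneg _))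
      rw [mul_sum]
      refine sum_congr rfl fun a _ => ?_
      by_cases ha : a ∈ U0
      · rw [((hm a).1 ha).2, add_zero, mul_left_comm]
      · simp [ind_neg ha]
    have h2 := key (c + a0)
    rw [← Equiv.sum_comp (Equiv.subRight a0)] at h2
    simp only [Equiv.subRight_apply, Pi.add_apply, Pi.sub_apply, add_add_sub_cancel, h1] at h2
    have h3 := add_le_add (key c) h2
    rw [← add_mul, ncl_add, ← sum_add_distrib, ← pow_succ'] at h3
    refine le_trans (sum_le_sum fun a _ => ?_) (h3.trans (pow_le_pow_right₀ (by norm_num) hlt))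
    rw [← add_mul]
    refine mul_le_mul_of_nonneg_right ((ind_mono fun ha => ?_).trans (ind_or _ _))
      (mul_nonneg (ncl_nonneg _) (hp c a))
    rcases (by decide : ∀ z : ZMod 2, z = 0 ∨ z - 1 = 0) (a b0) with h4 | h4
    · exact Or.inl ((hm a).2 ⟨ha, h4⟩)
    · exact Or.inr ((hm _).2 ⟨U.sub_mem ha ha0, by rw [Pi.sub_apply, h1, h4]⟩)

theorem info_set (U : Submodule (ZMod 2) (J → ZMod 2)) :
    ∑ a : J → ZMod 2, ind (a ∈ U) * (1 / 2 : ℝ) ^ (univ.filter fun b => a b ≠ 0).card ≤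
      (3 / 2) ^ Module.finrank (ZMod 2) U := by
  have := ncl_aux univ U (fun a _ h => funext fun b => h b (mem_univ _)) 0
  simpa only [Pi.zero_apply, zero_add, nclH, prod_ite, prod_const, one_pow, mul_one] using this

/-- The change of variables on rows. -/
def nclE (J : Type) : (J → ZMod 2) × (J → Bool) ≃ Row J where
  toFun p := (p.2, fun b => if p.1 b = 0 then p.2 b else !p.2 b)
  invFun r := (fun b => if r.1 b = r.2 b then 0 else 1, r.1)
  left_inv p := Prod.ext (funext fun b => (by decide : ∀ (z : ZMod 2) (x : Bool),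
    (if x = (if z = 0 then x else !x) then 0 else 1) = z) _ _) rfl
  right_inv r := Prod.ext rfl (funext fun b => (by decide : ∀ x y : Bool,
    (if (if x = y then 0 else 1 : ZMod 2) = 0 then x else !x) = y) _ _)

omit [Fintype J] [DecidableEq J] in
theorem ncl_rv (a : J → ZMod 2) (x : J → Bool) (b : J) :
    ((rv (nclE J (a, x)) b : ℤ) : ZMod 2) = a b ∧
      rv (nclE J (a, x)) b = if a b ≠ 0 then 2 * (if x b then 1 else 0) - 1 else 0 :=
  (by decide : ∀ (z : ZMod 2) (x : Bool),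
    (((if x then 1 else 0) - if (if z = 0 then x else !x) then 1 else 0 : ℤ) : ZMod 2) = z ∧
    ((if x then 1 else 0) - if (if z = 0 then x else !x) then 1 else 0 : ℤ) =
      if z ≠ 0 then 2 * (if x then 1 else 0) - 1 else 0) _ _

theorem ncl_fix {j : ℕ} (hj : 1 ≤ j) (t : J → ℤ) (a : J → ZMod 2) {c : ℝ} (hc : 0 ≤ c)
    (h : ∀ x : ZMod (2 ^ (j + 1)),
      pt (fun b : (univ.filter fun b => a b ≠ 0) => (t b : ZMod (2 ^ (j + 1)))) x ≤ c) :
    pr (fun x : J → Bool => ((2 ^ j : ℕ) : ℤ) ∣ rd t (nclE J (a, x))) ≤ 4 * c := by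
  obtain ⟨T, hT, h1⟩ := card_half j hj (∑ b, if a b ≠ 0 then t b else 0)
  let z : J → ZMod (2 ^ (j + 1)) := fun b => if a b ≠ 0 then t b else 0
  have h2 : ∀ y, pt z y ≤ c := pt_le_of_sub
    (f := fun b : (univ.filter fun b => a b ≠ 0) => (b : J)) Subtype.val_injective z fun y => by
      refine le_trans (le_of_eq ?_) (h y)
      congr 1
      funext b
      exact if_pos (mem_filter.1 b.2).2
  refine (pr_mono (q := fun x => ∃ y : T, ssum z x = y) fun x hx => ?_).trans
    ((pr_exists _).trans ((sum_le_sum fun (y : T) _ => h2 y).trans ?_))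
  · refine ⟨⟨_, h1 (∑ b, if x b then (if a b ≠ 0 then t b else 0) else 0) ?_⟩, ?_⟩
    · rw [mul_sum, ← sum_sub_distrib]
      push_cast at hx
      refine hx.trans (dvd_of_eq (sum_congr rfl fun b _ => ?_))
      rw [(ncl_rv a x b).2]
      split_ifs <;> ring
    · simp only [ssum, z]
      push_cast
      rfl
  · rw [sum_const, card_univ, Fintype.card_coe, nsmul_eq_mul]
    exact mul_le_mul_of_nonneg_right (by exact_mod_cast hT) hc

theorem nc_large {j s : ℕ} (hj : 1 ≤ j) {K : ℝ} (hK : 0 ≤ K) (t : J → ℤ)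
    (hfl : ∀ (T : Finset J) (x : ZMod (2 ^ (j + 1))),
      pt (fun b : T => (t b : ZMod (2 ^ (j + 1)))) x ≤ K / 2 ^ (j + 1) * (1 + 2 ^ s / 2 ^ T.card))
    (U : Submodule (ZMod 2) (Vx J)) (hU : Module.finrank (ZMod 2) U ≤ Fintype.card J) :
    prU (2 ^ j) t U ≤ (2 * K / 2 ^ (Fintype.card J - Module.finrank (ZMod 2) U) +
      2 * K * 2 ^ s * (3 / 4) ^ Fintype.card J *
        (2 / 3) ^ (Fintype.card J - Module.finrank (ZMod 2) U)) / 2 ^ j := by
  classical
  obtain ⟨k, hk⟩ := Nat.exists_eq_add_of_le hU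
  set d := Module.finrank (ZMod 2) U with hd
  let U' := U.map (LinearMap.fst (ZMod 2) (J → ZMod 2) (ZMod 2))
  have h1 : Module.finrank (ZMod 2) U' ≤ d := Submodule.finrank_map_le _ _
  have h2 : ∑ a : J → ZMod 2, ind (a ∈ U') ≤ 2 ^ d := by
    rw [sum_ind, ← Fintype.card_subtype, Module.card_eq_pow_finrank (K := ZMod 2), ZMod.card]
    exact_mod_cast Nat.pow_le_pow_right two_pos h1
  have h3 := (info_set U').trans (pow_le_pow_right₀ (by norm_num) h1)
  have h4 : ∀ a : J → ZMod 2, pr (fun x : J → Bool => ((2 ^ j : ℕ) : ℤ) ∣ rd t (nclE J (a, x)) ∧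
      ex (2 ^ j) t (nclE J (a, x)) ∈ U) ≤ 2 * K / 2 ^ j * ind (a ∈ U') + 2 * K / 2 ^ j * 2 ^ s *
        (ind (a ∈ U') * (1 / 2 : ℝ) ^ (univ.filter fun b => a b ≠ 0).card) := fun a => by
    refine (pr_mono (q := fun x => a ∈ U' ∧ ((2 ^ j : ℕ) : ℤ) ∣ rd t (nclE J (a, x)))
      fun x hx => ⟨⟨_, hx.2, funext fun b => (ncl_rv a x b).1⟩, hx.1⟩).trans ?_
    rw [pr_const_and]
    refine (mul_le_mul_of_nonneg_left (ncl_fix hj t a (by positivity) (hfl _))
      (ind_nonneg _)).trans_eq ?_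
    rw [one_div_pow]
    ring
  rw [prU, ← pr_equiv (nclE J), pr_prod, Fintype.card_fun, ZMod.card, hk, Nat.add_sub_cancel_left,
    div_le_iff₀ (by positivity)]
  refine (sum_le_sum fun a _ => h4 a).trans ?_
  rw [sum_add_distrib, ← mul_sum, ← mul_sum]
  refine (add_le_add (mul_le_mul_of_nonneg_left h2 (by positivity))
    (mul_le_mul_of_nonneg_left h3 (by positivity))).trans_eq ?_
  have h5 : (3 / 4 : ℝ) ^ (d + k) * (2 / 3) ^ k * 2 ^ (d + k) = (3 / 2) ^ d := by
    rw [mul_right_comm, ← mul_pow, pow_add, mul_assoc, ← mul_pow]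
    norm_num
  push_cast
  rw [← h5, pow_add (2 : ℝ)]
  field_simp

end Vale.Agent.P160
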