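import Vale.Agent.P160.NCs
import Vale.Agent.P160.NCl

/-! Negative correlation for good vectors. -/

open Finset

namespace Vale.Agent.P160

theorem nc_of_good {n : ℕ} {K η β : ℝ} {c K₀ l s : ℕ} (hN : Num n K η β c K₀ l s) {j : ℕ}
    (hj : 1 ≤ j) (v : Fin n → ZMod (2 ^ j)) (hv : Gd K c η s j v) (J : Finset (Fin n))
    (hJ : 13 * n ≤ 40 * J.card) (ho : n / 50 ≤ (odds v ∩ J).card) :
    NC (2 ^ j) β fun b : J => ((v b).val : ℤ) := by
  intro U hU
  have hn := hN.n_le
  have hs := hN.s_le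
  have hK : (0 : ℝ) ≤ K := le_trans (by norm_num) hN.K_le
  have hc := hN.c_le
  have hsJ : s ≤ Fintype.card J := by rw [Fintype.card_coe]; omega
  have ho' : n / 50 ≤ (univ.filter fun b : J => Odd ((v b).val : ℤ)).card := by
    refine ho.trans (Finset.card_le_card_of_surjOn (fun b : J => b.1) fun i hi => ?_)
    have hi' := mem_inter.1 (mem_coe.1 hi)
    exact ⟨⟨i, hi'.2⟩, mem_coe.2 (mem_filter.2 ⟨mem_univ _,
      (Int.odd_coe_nat _).2 (mem_filter.1 hi'.1).2⟩), rfl⟩
  have hodd : ∃ b : J, Odd ((v b).val : ℤ) := by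
    obtain ⟨b, hb⟩ := Finset.card_pos.1 (lt_of_lt_of_le (by omega) ho')
    exact ⟨b, (mem_filter.1 hb).2⟩
  have hU' : Module.finrank (ZMod 2) U ≤ Fintype.card J :=
    (Submodule.finrank_mono hU).trans (finrank_V0 hodd).le
  have h1 := nc_small hj (by omega : 1 ≤ c) _ ho'
    (fun σ => Good.high hv Subtype.val_injective hsJ σ) U hU'
  have h2 := nc_large (s := s) hj hK (fun b : J => ((v b).val : ℤ)) (fun T x => by
    have := Good.flat_small hv hK (by rw [Fintype.card_fin]; omega) (f := fun b : T => b.1.1)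
      (fun a b h => Subtype.ext (Subtype.ext h)) x
    rw [Fintype.card_coe] at this
    simpa using this) U hU'
  have h3 := hN.tau (Fintype.card J) (by rwa [Fintype.card_coe])
  generalize Fintype.card J - Module.finrank (ZMod 2) U = k at h1 h2 ⊢
  have hε : 0 ≤ η + 2 ^ c * (1 - 1 / 4 ^ c : ℝ) ^ (n / 50) := by
    have : (1 : ℝ) / 4 ^ c ≤ 1 := div_le_one_of_le₀ (one_le_pow₀ (by norm_num)) (by positivity)
    have := hN.η_le
    have : (0 : ℝ) ≤ 1 - 1 / 4 ^ c := by linarith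
    positivity
  have hβ := hN.beta
  have hp : (0 : ℝ) < (2 / 3) ^ k := by positivity
  have hq : (0 : ℝ) < 2 ^ j := by positivity
  have hhalf : (1 : ℝ) / 2 ^ k = (3 / 4) ^ k * (2 / 3) ^ k := by
    rw [← mul_pow, ← one_div_pow]; norm_num
  push_cast
  rw [div_mul_eq_mul_div]
  rcases Nat.eq_zero_or_pos k with rfl | hk
  · refine h1.trans (div_le_div_of_nonneg_right ?_ hq.le)
    simpa using hβ
  have hβ' : (2 / 3 : ℝ) ^ k ≤ β * (2 / 3) ^ k := le_mul_of_one_le_left hp.le (by linarith)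
  by_cases hk' : k ≤ K₀
  · refine h1.trans (div_le_div_of_nonneg_right ?_ hq.le)
    have a1 : (3 / 4 : ℝ) ^ k ≤ 3 / 4 := pow_le_of_le_one (by norm_num) (by norm_num) hk.ne'
    have a2 : (2 / 3 : ℝ) ^ K₀ ≤ (2 / 3) ^ k := pow_le_pow_of_le_one (by norm_num) (by norm_num) hk'
    have a3 := hN.small
    have a4 := mul_le_mul_of_nonneg_right a1 hp.le
    linarith
  · refine h2.trans (div_le_div_of_nonneg_right ?_ hq.le)
    have a1 : (3 / 4 : ℝ) ^ k ≤ (3 / 4) ^ K₀ :=
      pow_le_pow_of_le_one (by norm_num) (by norm_num) (by omega)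
    have a2 : (4 / 3 : ℝ) ^ K₀ * (3 / 4) ^ K₀ = 1 := by rw [← mul_pow]; norm_num
    have a3 : 4 * K * (3 / 4) ^ k ≤ 1 :=
      (mul_le_mul hN.big a1 (by positivity) (by positivity)).trans a2.le
    have a4 := mul_le_mul_of_nonneg_right a3 hp.le
    have a5 := mul_le_mul_of_nonneg_right h3 hp.le
    rw [← mul_one_div, hhalf]
    nlinarith

end Vale.Agent.P160
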