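import Vale.Agent.P160.Mono

/-! The collision probability of a pattern. -/

open Finset

namespace Vale.Agent.P160

theorem pat_ssum {n : ℕ} (q : ℕ) (v : Fin n → ℤ) (ω : Sym2 (Fin n) → Bool) :
    ssum (step q v) ω = (fun i => ((∑ j, Bm ω i j * v j : ℤ) : ZMod q),
      ((∑ i, ∑ j, v i * (Bm ω i j * v j) : ℤ) : ZMod (q ^ 2))) := by
  have key : ∀ (e' : Sym2 (Fin n)) (a : ℤ),
      ∑ e, (if ω e then (if e' = e then a else 0) else 0) = (if ω e' then 1 else 0) * a := by
    intro e' a
    rw [Finset.sum_eq_single e']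
    · split_ifs <;> simp_all
    · intro e _ he; simp [he.symm]
    · simp
  refine Prod.ext (funext fun i => ?_) ?_
  · have : (ssum (step q v) ω).1 i =
        ((∑ e, if ω e then ∑ j, (if s(i, j) = e then v j else 0) else 0 : ℤ) : ZMod q) := by
      simp only [ssum, Prod.fst_sum, Finset.sum_apply]
      rw [Int.cast_sum]
      refine Finset.sum_congr rfl fun e _ => ?_
      split_ifs <;> simp [step]
    rw [this]
    congr 1
    simp only [Bm, Matrix.of_apply, ← key]
    rw [Finset.sum_comm]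
    refine Finset.sum_congr rfl fun e _ => ?_
    split_ifs <;> simp
  · have : (ssum (step q v) ω).2 = ((∑ e, if ω e then
        ∑ i, ∑ j, (if s(i, j) = e then v i * v j else 0) else 0 : ℤ) : ZMod (q ^ 2)) := by
      simp only [ssum, Prod.snd_sum]
      rw [Int.cast_sum]
      refine Finset.sum_congr rfl fun e _ => ?_
      split_ifs <;> simp [step]
    rw [this]
    congr 1
    have h1 : ∀ i j, v i * (Bm ω i j * v j) =
        ∑ e, if ω e then (if s(i, j) = e then v i * v j else 0) else 0 := fun i j => by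
      rw [key, mul_left_comm]; rfl
    simp only [h1]
    have : ∀ e, (if ω e then ∑ i, ∑ j, (if s(i, j) = e then v i * v j else 0) else 0 : ℤ) =
        ∑ i, ∑ j, if ω e then (if s(i, j) = e then v i * v j else 0) else 0 := fun e => by
      split_ifs <;> simp
    simp only [this]
    rw [Finset.sum_comm]
    exact Finset.sum_congr rfl fun i _ => Finset.sum_comm

theorem pr_hens {n : ℕ} (q : ℕ) (v : Fin n → ℤ) : pr (Hens q v) = pt (step q v) 0 := by
  refine pr_congr fun ω => ?_
  rw [pat_ssum, Prod.ext_iff, funext_iff]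
  simp only [Prod.fst_zero, Prod.snd_zero, Pi.zero_apply, ZMod.intCast_zmod_eq_zero_iff_dvd,
    Nat.cast_pow]
  rfl

theorem pat_step {n : ℕ} (q : ℕ) (v : Fin n → ℤ) {a b : Fin n} (h : a ≠ b) :
    step q v s(a, b) = (fun i => (((if i = a then v b else 0) + if i = b then v a else 0 : ℤ) :
      ZMod q), ((2 * (v a * v b) : ℤ) : ZMod (q ^ 2))) := by
  have key : ∀ (i j : Fin n) (x : ℤ), (if s(i, j) = s(a, b) then x else 0) =
      (if i = a then (if j = b then x else 0) else 0) +
        if i = b then (if j = a then x else 0) else 0 := by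
    intro i j x
    by_cases h1 : i = a <;> by_cases h2 : j = b <;> by_cases h3 : i = b <;> by_cases h4 : j = a <;>
      simp_all
  refine Prod.ext (funext fun i => ?_) ?_
  · simp only [step, key, Finset.sum_add_distrib]
    congr 2 <;> split_ifs <;> simp
  · simp only [step, key, Finset.sum_add_distrib, Finset.sum_ite_irrel, Finset.sum_const_zero,
      Finset.sum_ite_eq', mem_univ, if_true]
    congr 1; ring

theorem pat_sub {κ G : Type} [Fintype κ] [AddCommGroup G] (z : κ → G) (ω ω' : κ → Bool) :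
    ssum z ω - ssum z ω' =
      ∑ k, ((if ω k then 1 else 0) - (if ω' k then 1 else 0) : ℤ) • z k := by
  simp only [ssum, ← Finset.sum_sub_distrib]
  refine Finset.sum_congr rfl fun k _ => ?_
  cases ω k <;> cases ω' k <;> simp

theorem coll_cut {n : ℕ} (q : ℕ) (v : Fin n → ℤ) (J : Finset (Fin n)) :
    coll (fun p : {i // i ∉ J} × J => step q v s(p.1.1, p.2.1)) ≤
      cutP q (fun b : J => v b) fun i : {i // i ∉ J} => v i := by
  unfold coll cutP
  let e : ({i // i ∉ J} → Row J) ≃ (({i // i ∉ J} × J → Bool) × ({i // i ∉ J} × J → Bool)) :=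
    { toFun := fun Y => (fun p => (Y p.1).1 p.2, fun p => (Y p.1).2 p.2)
      invFun := fun X i => (fun b => X.1 (i, b), fun b => X.2 (i, b))
      left_inv := fun _ => rfl
      right_inv := fun _ => rfl }
  rw [← pr_equiv e]
  refine pr_mono fun Y hY => ?_
  have hne : ∀ p : {i // i ∉ J} × J, p.1.1 ≠ p.2.1 := fun p h => p.1.2 (h ▸ p.2.2)
  have h0 := sub_eq_zero.2 hY
  rw [pat_sub] at h0
  simp only [pat_step q v (hne _)] at h0
  have h1 := fun i => congrFun (congrArg Prod.fst h0) i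
  have h2 := congrArg Prod.snd h0
  simp only [Prod.fst_sum, Prod.snd_sum, Finset.sum_apply, Prod.smul_fst, Prod.smul_snd,
    Pi.smul_apply] at h1 h2
  simp only [zsmul_eq_mul, ← Int.cast_mul, ← Int.cast_sum, Prod.fst_zero, Prod.snd_zero,
    Pi.zero_apply, ZMod.intCast_zmod_eq_zero_iff_dvd, Fintype.sum_prod_type, Nat.cast_pow] at h1 h2
  refine ⟨fun i => ?_, fun b => ?_, ?_⟩
  · convert h1 i using 1
    rw [Finset.sum_eq_single i]
    · refine Finset.sum_congr rfl fun b _ => ?_
      rw [if_pos rfl, if_neg (hne (i, b)), add_zero]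
      rfl
    · intro i' _ hi
      refine Finset.sum_eq_zero fun b _ => ?_
      rw [if_neg (fun h : i.1 = i'.1 => hi (Subtype.ext h.symm)), if_neg (hne (i, b))]
      simp
    · simp
  · convert h1 b using 1
    refine Finset.sum_congr rfl fun i _ => ?_
    rw [Finset.sum_eq_single b]
    · rw [if_pos rfl, if_neg (hne (i, b)).symm, zero_add]
      rfl
    · intro b' _ hb
      rw [if_neg (hne (i, b)).symm, if_neg (fun h : b.1 = b'.1 => hb (Subtype.ext h.symm))]
      simp
    · simp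
  · convert h2 using 1
    simp only [rd, Finset.mul_sum, Finset.sum_mul]
    refine Finset.sum_congr rfl fun i _ => Finset.sum_congr rfl fun b _ => ?_
    change 2 * (rv (Y i) b * v b * v i) = rv (Y i) b * _
    ring

theorem coll_patt {n j : ℕ} (hj : 1 ≤ j) (v : Fin n → ℤ) (J : Finset (Fin n)) {i₀ : Fin n}
    (h₀ : i₀ ∉ J) (hodd : Odd (v i₀)) {K : ℝ}
    (hfl : Flat K fun i : {i // i ∉ J ∧ i ≠ i₀} => (v i : ZMod (2 ^ (j + 1)))) :
    coll (fun e : patt J i₀ => step (2 ^ j) v e) ≤
      2 * K / 2 ^ j * cutP (2 ^ j) (fun b : J => v b) fun i : {i // i ∉ J} => v i := by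
  classical
  let g : {i // i ∉ J ∧ i ≠ i₀} ⊕ ({i // i ∉ J} × J) → patt J i₀ := fun k =>
    match k with
    | .inl i => ⟨s(i₀, i.1), mem_filter.2 ⟨mem_univ _, Or.inr ⟨i.1, i.2.1, i.2.2, rfl⟩⟩⟩
    | .inr p => ⟨s(p.1.1, p.2.1), mem_filter.2 ⟨mem_univ _, Or.inl ⟨p.1.1, p.1.2, p.2.1, p.2.2, rfl⟩⟩⟩
  have hg : Function.Bijective g := by
    constructor
    · rintro (i | p) (i' | p') h <;> have h' := Sym2.eq_iff.1 (congrArg Subtype.val h)
      · rcases h' with h' | h'
        · rw [Subtype.ext h'.2]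
        · exact absurd h'.2 i.2.2
      · rcases h' with h' | h'
        · exact absurd (h'.2 ▸ p'.2.2) i.2.1
        · exact absurd (h'.1 ▸ p'.2.2) h₀
      · rcases h' with h' | h'
        · exact absurd (h'.2 ▸ p.2.2) i'.2.1
        · exact absurd (h'.2 ▸ p.2.2) h₀
      · rcases h' with h' | h'
        · rw [Prod.ext (Subtype.ext h'.1) (Subtype.ext h'.2)]
        · exact absurd (h'.1 ▸ p'.2.2) p.1.2
    · rintro ⟨e, he⟩
      rcases (mem_filter.1 he).2 with ⟨i, hi, b, hb, rfl⟩ | ⟨i, hi, hi', rfl⟩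
      · exact ⟨.inr (⟨i, hi⟩, ⟨b, hb⟩), rfl⟩
      · exact ⟨.inl ⟨i, hi, hi'⟩, rfl⟩
  rw [← coll_equiv (Equiv.ofBijective g hg),
    mono_elim (Equiv.ofBijective g hg) fun e : patt J i₀ => step (2 ^ j) v e]
  let φ : (Fin n → ZMod (2 ^ j)) × ZMod ((2 ^ j) ^ 2) →+ ZMod (2 ^ j) :=
    { toFun := fun x => ∑ i, (if i ∈ J then -(v i : ZMod (2 ^ j)) else v i) * x.1 i
      map_zero' := by simp
      map_add' := fun x y => by simp [mul_add, Finset.sum_add_distrib] }
  have hφ : ∀ a b : Fin n, a ≠ b → φ (step (2 ^ j) v s(a, b)) =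
      (if a ∈ J then -(v a : ZMod (2 ^ j)) else v a) * v b +
        (if b ∈ J then -(v b : ZMod (2 ^ j)) else v b) * v a := fun a b h => by
    rw [pat_step _ _ h]
    simp only [φ, AddMonoidHom.coe_mk, ZeroHom.coe_mk, Int.cast_add, Int.cast_ite, Int.cast_zero,
      mul_add, Finset.sum_add_distrib, mul_ite (_ = _), mul_zero, Finset.sum_ite_eq', mem_univ,
      if_true]
  have hK : 0 ≤ K / ((2 ^ (j + 1) : ℕ) : ℝ) := (pr_nonneg _).trans (hfl 0)
  refine (coll_elim_le φ _ _ fun p => ?_).trans (mul_le_mul ?_ (coll_cut _ v J) (pr_nonneg _) ?_)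
  · change φ (step (2 ^ j) v s(p.1.1, p.2.1)) = 0
    rw [hφ _ _ fun h : p.1.1 = p.2.1 => p.1.2 (h ▸ p.2.2), if_neg p.1.2, if_pos p.2.2]
    ring
  · obtain ⟨T, hT, hT'⟩ := card_half j hj 0
    refine le_trans (pr_mono fun p hp => ?_) ((pr_diff_mem _ hfl T).trans ?_)
    · have h0 := sub_eq_zero.2 hp
      rw [pat_sub] at h0 ⊢
      have e : ∀ i : {i // i ∉ J ∧ i ≠ i₀}, φ (step (2 ^ j) v (g (.inl i)).1) =
          ((v i₀ * (2 * v i) : ℤ) : ZMod (2 ^ j)) := fun i => by
        change φ (step (2 ^ j) v s(i₀, i.1)) = _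
        rw [hφ _ _ i.2.2.symm, if_neg h₀, if_neg i.2.1]
        push_cast; ring
      simp only [Equiv.ofBijective_apply, e, zsmul_eq_mul, ← Int.cast_mul, ← Int.cast_sum,
        ZMod.intCast_zmod_eq_zero_iff_dvd, Nat.cast_pow, Nat.cast_ofNat] at h0 ⊢
      refine hT' _ ?_
      have hc : IsCoprime ((2 : ℤ) ^ j) (v i₀) :=
        (Int.isCoprime_two_left.2 hodd).pow_left
      refine hc.dvd_of_dvd_mul_left ?_
      refine h0.trans (dvd_of_eq ?_)
      simp only [sub_zero, Finset.mul_sum]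
      exact Finset.sum_congr rfl fun i _ => by ring
    · refine (mul_le_mul_of_nonneg_right (Nat.cast_le.2 hT) hK).trans (le_of_eq ?_)
      push_cast
      field_simp
      ring
  · have : 2 * K / 2 ^ j = 4 * (K / ((2 ^ (j + 1) : ℕ) : ℝ)) := by
      push_cast
      field_simp
      ring
    rw [this]; positivity

end Vale.Agent.P160
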