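import Vale.Agent.P160.Four
import Vale.Agent.P160.Fam
import Vale.Agent.P160.NCm
import Vale.Agent.P160.CutT
import Vale.Agent.P160.Pat

/-! The first moment at one scale. -/

open Finset

namespace Vale.Agent.P160

theorem scale {n : ℕ} {K η β : ℝ} {c K₀ l s : ℕ} (hN : Num n K η β c K₀ l s) {j : ℕ} (hj : 1 ≤ j)
    (hjl : j ≤ l) (S : Finset (Fin n)) (hS : S = ∅ ∨ S.card = s)
    (B : (S → ZMod (2 ^ j)) → Prop) :
    ∑ v : Fin n → ZMod (2 ^ j), ind (Gd K c η s j v ∧ n ≤ 10 * (odds v).card ∧ B fun k => v k) *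
      pr (Hens (2 ^ j) fun i => ((v i).val : ℤ)) ≤
      50000 * K * β ^ n * (∑ x, ind (B x)) / (2 ^ j) ^ (S.card + 1) := by
  classical
  have hn := hN.n_le
  have hs1 := hN.s_le
  have hs2 := hN.le_s
  have hK : (0 : ℝ) ≤ K := le_trans (by norm_num) hN.K_le
  have hβ : 1 ≤ β := by
    have h1 : (1 : ℝ) / 4 ^ c ≤ 1 := div_le_one_of_le₀ (one_le_pow₀ (by norm_num)) (by positivity)
    have h2 : (0 : ℝ) ≤ 1 - 1 / 4 ^ c := by linarith
    have h3 : (0 : ℝ) ≤ 2 ^ c * (1 - 1 / 4 ^ c) ^ (n / 50) := by positivity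
    linarith [hN.beta, hN.η_le]
  have hS1 : S = ∅ ∨ n ≤ 10 * S.card := hS.imp id fun h => by rwa [h]
  have hS2 : 1000 * S.card ≤ 134 * n := by
    rcases hS with rfl | h
    · simp
    · rwa [h]
  have hn0 : (0 : ℝ) < n := Nat.cast_pos.2 (by omega)
  let J : (Fin n → Fin 3) × Fin n → Finset (Fin n) := fun P => (col0 P.1).erase P.2
  let R : (Fin n → Fin 3) × Fin n → Prop := fun P => 326 * n ≤ 1000 * (col0 P.1).card ∧
    1000 * (col0 P.1).card ≤ 337 * n ∧ 3 * S.card ≤ 10 * (S ∩ col0 P.1).card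
  let F : (Fin n → Fin 3) × Fin n → (Fin n → ZMod (2 ^ j)) → ℝ := fun P v =>
    ind (B (fun k => v k) ∧ (∃ b ∈ J P, Odd (v b).val) ∧
      NC (2 ^ j) β fun b : J P => ((v b).val : ℤ)) *
    cutP (2 ^ j) (fun b : J P => ((v b).val : ℤ)) (fun i : {i // i ∉ J P} => ((v i).val : ℤ))
  have hF : ∀ P v, 0 ≤ F P v := fun P v => mul_nonneg (ind_nonneg _) (pr_nonneg _)
  have hJ : ∀ P (T : Finset (Fin n)), (T ∩ J P).card ≤ (T ∩ col0 P.1).card ∧
      (T ∩ col0 P.1).card ≤ (T ∩ J P).card + 1 := fun P T => by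
    simp only [J, Finset.inter_erase]
    have := Finset.pred_card_le_card_erase (s := T ∩ col0 P.1) (a := P.2)
    exact ⟨Finset.card_erase_le, by omega⟩
  have h1 : ∀ v : Fin n → ZMod (2 ^ j), ind (Gd K c η s j v ∧ n ≤ 10 * (odds v).card ∧
      B fun k => v k) * pr (Hens (2 ^ j) fun i => ((v i).val : ℤ)) ≤
      (∑ P, ind (R P) * F P v) * (2 * K / 2 ^ j) / (19 / 200 * 3 ^ n * n) := fun v => by
    have h0 : 0 ≤ (∑ P, ind (R P) * F P v) * (2 * K / 2 ^ j) :=
      mul_nonneg (Finset.sum_nonneg fun P _ => mul_nonneg (ind_nonneg _) (hF P v)) (by positivity)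
    refine ind_mul_le (by positivity) fun ⟨a1, a2, a3⟩ => ?_
    have a4 : 19 / 200 * 3 ^ n * (n : ℝ) ≤ (fam (odds v) S).card := by
      refine le_trans ?_ (fam_card hn _ S a2 hS1)
      have : (n : ℝ) ≤ 10 * (odds v).card := by exact_mod_cast a2
      have h3 : (0 : ℝ) < 3 ^ n := by positivity
      nlinarith
    have a5 : (0 : ℝ) < 19 / 200 * 3 ^ n * n := by positivity
    rw [pr_hens]
    refine (amgm _ _ (fam (odds v) S) (Finset.card_pos.1 (Nat.cast_pos.1 (a5.trans_le a4)))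
      (fun P => patt (J P) P.2) fun e => by convert fam_freq hn _ S a2 hS1 e).trans ?_
    refine le_trans (div_le_div_of_nonneg_right ?_ (Nat.cast_nonneg _))
      (div_le_div_of_nonneg_left h0 a5 a4)
    rw [Finset.sum_mul]
    refine (Finset.sum_le_sum fun P hP => ?_).trans (Finset.sum_le_sum_of_subset_of_nonneg
      (subset_univ _) fun P _ _ => mul_nonneg (mul_nonneg (ind_nonneg _) (hF P v)) (by positivity))
    obtain ⟨⟨b1, b2, b3, b4⟩, b5⟩ := (mem_filter.1 hP).2
    have c1 := hJ P univ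
    have c2 := hJ P (odds v)
    simp only [Finset.univ_inter] at c1
    have c3 : n / 50 ≤ (odds v ∩ J P).card := by omega
    obtain ⟨b, hb⟩ := Finset.card_pos.1 (lt_of_lt_of_le (by omega) c3)
    simp only [F]
    rw [ind_pos (show R P from ⟨b1, b2, b4⟩), ind_pos ⟨a3, ⟨b, (mem_inter.1 hb).2,
      (mem_filter.1 (mem_inter.1 hb).1).2⟩, nc_of_good hN hj v a1 _ (by omega) c3⟩, one_mul,
      one_mul, mul_comm]
    refine coll_patt hj _ _ (notMem_erase _ _) ((Int.odd_coe_nat _).2 (mem_filter.1 b5).2)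
      (Good.flat a1 Subtype.val_injective ?_)
    have c4 : (univ.filter fun i => i ∉ J P ∧ i ≠ P.2) = (insert P.2 (J P))ᶜ := by
      ext i; simp [and_comm]
    have c5 := Finset.card_insert_le P.2 (J P)
    rw [Fintype.card_subtype, c4, Finset.card_compl, Fintype.card_fin]
    omega
  have hB : 0 ≤ ∑ x, ind (B x) := Finset.sum_nonneg fun _ _ => ind_nonneg _
  have h2 : ∀ P, ∑ v, ind (R P) * F P v ≤
      2000 * β ^ n * (∑ x, ind (B x)) / (2 ^ j) ^ S.card := fun P => by
    rw [← Finset.mul_sum]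
    refine ind_mul_le (by positivity) fun ⟨b1, b2, b3⟩ => ?_
    have c1 := hJ P univ
    have c2 := hJ P S
    simp only [Finset.univ_inter] at c1
    have c3 := Finset.card_union_add_card_inter (J P) S
    have c4 : (J P ∪ S)ᶜ.card = n - (J P ∪ S).card := by
      rw [Finset.card_compl, Fintype.card_fin]
    rw [inter_comm] at c3
    have := cut_total hj (J P) S B hβ (by omega) (le_trans (mul_le_mul_of_nonneg_right
      (pow_le_pow_right₀ (by norm_num) hjl) (by positivity)) (hN.tall _ (by omega)))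
    rwa [Fintype.card_fin] at this
  refine (Finset.sum_le_sum fun v _ => h1 v).trans ?_
  rw [← Finset.sum_div, ← Finset.sum_mul, Finset.sum_comm]
  refine (div_le_div_of_nonneg_right (mul_le_mul_of_nonneg_right
    (Finset.sum_le_sum fun P _ => h2 P) (by positivity)) (by positivity)).trans ?_
  simp only [Finset.sum_const, card_univ, Fintype.card_prod, Fintype.card_fun, Fintype.card_fin,
    nsmul_eq_mul]
  push_cast
  refine le_trans (le_of_eq (b := 800000 / 19 * (K * β ^ n * (∑ x, ind (B x)) /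
    (2 ^ j) ^ (S.card + 1))) (by field_simp; ring)) ((mul_le_mul_of_nonneg_right
    (by norm_num : (800000 / 19 : ℝ) ≤ 50000) (by positivity)).trans (le_of_eq (by ring)))

end Vale.Agent.P160
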