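import Mathlib

/-! The singularity probability of symmetric sign matrices: definitions of the statement. -/

namespace Vale.Agent.P160

/-- Symmetric `n × n` matrices with entries `±1`. -/
def SymSign (n : ℕ) : Set (Matrix (Fin n) (Fin n) ℤ) :=
  {A | A.IsSymm ∧ ∀ i j, A i j = 1 ∨ A i j = -1}

/-- The probability that a uniformly random symmetric sign matrix is singular. -/
noncomputable def singProb (n : ℕ) : ℝ :=
  ({A ∈ SymSign n | A.det = 0}.ncard : ℝ) / ((SymSign n).ncard : ℝ)

end Vale.Agent.P160
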